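import Vale.Agent.P027.R5.E5.Points
import Vale.Agent.P027.R4.H849.CalP

set_option linter.all false

/-! The predicates of the larger class are `RDio`. -/

namespace Vale.Agent.P027.E5

open MvPolynomial Vale.Agent.P345 Vale.Agent.P027 Vale.Agent.P027.HT Vale.Agent.P027.D1
  Vale.Agent.P027.D5

variable {C : Set ℚ → Prop} {F G H : (ℕ → ℚ) → EC.Point}

theorem dio_d5 (hF : DPt F) (hG : DPt G) : Dio (fun v => D5P (F v) (G v)) := by
  unfold D5P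
  apply dio_exP
  apply Dio.ex
  apply Dio.ex
  apply Dio.ex
  apply Dio.ex
  have pQ : DPt (fun v => dec (v 4) (v 5)) := DPt.dec (DioFn.var 4) (DioFn.var 5)
  have h1 : Dio (fun v => dec (v 4) (v 5) + dec (v 4) (v 5) =
      F (tl (tl (tl (tl (tl (tl v))))))) := dio_pt_eq (pQ.add pQ) hF.tl.tl.tl.tl.tl.tl
  have h2 : Dio (fun v => v 3 ≠ 0) := Dio.ne (DioFn.var 3) (by simpa using DioFn.int 0)
  have h3 : Dio (fun v => xc (dec (v 4) (v 5)) = -v 3 ^ 2) := by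
    refine (Dio.eq pQ.xc ((DioFn.int (-1)).mul ((DioFn.var 3).pow 2))).congr (fun v => ?_)
    push_cast
    rw [neg_one_mul]
  have h4 : Dio (fun v => (v 3 / xc (G (tl (tl (tl (tl (tl (tl v)))))))) ^ 2 - 2 =
      2 * v 2 ^ 2 + v 3 * (v 1 ^ 2 - 2 * v 0 ^ 2)) :=
    Dio.eq ((((DioFn.var 3).div hG.tl.tl.tl.tl.tl.tl.xc).pow 2).sub (lit_fn 2))
      (((lit_fn 2).mul ((DioFn.var 2).pow 2)).add ((DioFn.var 3).mul
        (((DioFn.var 1).pow 2).sub ((lit_fn 2).mul ((DioFn.var 0).pow 2)))))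
  exact h1.and (h2.and (h3.and h4))

theorem dio_p5 (J : ℕ) (hF : DPt F) : Dio (fun v => P5P J (F v)) := by
  have h : Dio (fun v => ∃ s t a b c d : ℚ, s ^ 2 = xc (J • F v) ∧
      t ^ 2 = xc ((2 * J : ℤ) • P0) ∧
      s * t = (a ^ 2 - 2 * b ^ 2) * (c ^ 2 + 2 * d ^ 2)) := by
    apply Dio.ex
    apply Dio.ex
    apply Dio.ex
    apply Dio.ex
    apply Dio.ex
    apply Dio.ex
    have h1 : Dio (fun v => v 5 ^ 2 = xc (J • F (tl (tl (tl (tl (tl (tl v)))))))) :=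
      Dio.eq ((DioFn.var 5).pow 2) (hF.tl.tl.tl.tl.tl.tl.nsmul J).xc
    have h2 : Dio (fun v => v 4 ^ 2 = xc ((2 * J : ℤ) • P0)) :=
      Dio.eq ((DioFn.var 4).pow 2) (DPt.const ((2 * J : ℤ) • P0)).xc
    have h3 : Dio (fun v => v 5 * v 4 = (v 3 ^ 2 - 2 * v 2 ^ 2) * (v 1 ^ 2 + 2 * v 0 ^ 2)) :=
      Dio.eq ((DioFn.var 5).mul (DioFn.var 4))
        ((((DioFn.var 3).pow 2).sub ((lit_fn 2).mul ((DioFn.var 2).pow 2))).mul
          (((DioFn.var 1).pow 2).add ((lit_fn 2).mul ((DioFn.var 0).pow 2))))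
    exact h1.and (h2.and h3)
  refine h.congr (fun v => ?_)
  constructor
  · rintro ⟨s, t, h1, h2, a, b, c, d, h3⟩
    exact ⟨s, t, a, b, c, d, h1, h2, h3⟩
  · rintro ⟨s, t, a, b, c, d, h1, h2, h3⟩
    exact ⟨s, t, h1, h2, a, b, c, d, h3⟩

theorem rdio_rel (hC : ∀ R, C R → (0 : ℚ) ∈ R) (B J : ℕ) (hF : DPt F) (hG : DPt G) :
    RDio C (fun R v => RelP B J R (F v) (G v)) := by
  unfold RelP
  refine (D1.rdio_rel hC B J hF hG).and (RDio.of_dio hC ?_)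
  by_cases hJ : Odd J
  · refine ((dio_pt_zero hG).or (dio_d5 (hF.nsmul (J * LL B J)) (hG.nsmul (J * LL B J)))).congr (fun v => ?_)
    exact ⟨fun h => h hJ, fun h _ => h⟩
  · exact Dio.true.congr (fun v => ⟨fun _ => trivial, fun _ h => absurd h hJ⟩)

theorem rdio_pow (hC : ∀ R, C R → (0 : ℚ) ∈ R)
    (hEv : ∀ V : EC.Point, EvPt V ↔ ∃ W : EC.Point, V = W + W) (B J : ℕ) (hF : DPt F) :
    RDio C (fun R v => PowP B J R (F v)) := by
  unfold PowP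
  refine (D1.rdio_pow hC hEv B J hF).and (RDio.of_dio hC ?_)
  by_cases hJ : Odd J
  · exact (dio_p5 J hF).congr (fun v => ⟨fun h => h hJ, fun h _ => h⟩)
  · exact Dio.true.congr (fun v => ⟨fun _ => trivial, fun _ h => absurd h hJ⟩)

theorem rdio_sqO (hC : ∀ R, C R → (0 : ℚ) ∈ R)
    (hEv : ∀ V : EC.Point, EvPt V ↔ ∃ W : EC.Point, V = W + W) (B J : ℕ)
    (hF : DPt F) (hG : DPt G) : RDio C (fun R v => SqOP B J R (F v) (G v)) := by
  unfold SqOP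
  apply RDio.exP hC
  apply RDio.exP hC
  apply RDio.exP hC
  apply RDio.exP hC
  have p8 : DPt (fun v => dec (v 0) (v 1)) := DPt.dec (DioFn.var 0) (DioFn.var 1)
  have p4 : DPt (fun v => dec (v 2) (v 3)) := DPt.dec (DioFn.var 2) (DioFn.var 3)
  have p2 : DPt (fun v => dec (v 4) (v 5)) := DPt.dec (DioFn.var 4) (DioFn.var 5)
  have p1 : DPt (fun v => dec (v 6) (v 7)) := DPt.dec (DioFn.var 6) (DioFn.var 7)
  have c2 : DPt (fun _ => 2 • P0) := DPt.const _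
  have hF' := hF.tl.tl.tl.tl.tl.tl.tl.tl
  have hG' := hG.tl.tl.tl.tl.tl.tl.tl.tl
  exact ((rdio_pow hC hEv B J p1).and ((rdio_pow hC hEv B J p2).and
      ((rdio_pow hC hEv B J p4).and (rdio_pow hC hEv B J p8)))).and
    ((RDio.of_dio hC (dio_exEv hEv 2 p1)).and
    ((RDio.of_dio hC ((dio_v2 p1 p2).and ((dio_v2 p2 p4).and (dio_v2 p4 p8)))).and
    ((RDio.of_dio hC ((dio_one hEv 3 p4).and ((dio_one hEv 3 p8).and (dio_one hEv _ p4)))).and
    ((rdio_rel hC B J hF' (p1.sub c2)).and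
    ((rdio_rel hC B J hG' (p1.sub c2)).and
    (rdio_rel hC B J (p4.sub hF') (p8.sub hG')))))))

theorem rdio_sq (hC : ∀ R, C R → (0 : ℚ) ∈ R)
    (hEv : ∀ V : EC.Point, EvPt V ↔ ∃ W : EC.Point, V = W + W) (B J : ℕ)
    (hF : DPt F) (hG : DPt G) : RDio C (fun R v => SqP B J R (F v) (G v)) := by
  unfold SqP
  exact (RDio.of_dio hC (dio_ev hEv hF)).and ((RDio.of_dio hC (dio_ev hEv hG)).and
    (rdio_sqO hC hEv B J ((hF.nsmul (2 * J)).sub (DPt.const (2 • P0)))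
      (((hG.nsmul (4 * J ^ 2)).sub (hF.nsmul (4 * J))).add (DPt.const (2 • P0)))))

theorem rdio_mul (hC : ∀ R, C R → (0 : ℚ) ∈ R)
    (hEv : ∀ V : EC.Point, EvPt V ↔ ∃ W : EC.Point, V = W + W) (B J : ℕ)
    (hF : DPt F) (hG : DPt G) (hH : DPt H) :
    RDio C (fun R v => MulP B J R (F v) (G v) (H v)) := by
  unfold MulP
  refine (RDio.of_dio hC (dio_ev hEv hH)).and ?_
  apply RDio.exP hC
  apply RDio.exP hC
  apply RDio.exP hC
  have pD : DPt (fun v => dec (v 0) (v 1)) := DPt.dec (DioFn.var 0) (DioFn.var 1)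
  have pC : DPt (fun v => dec (v 2) (v 3)) := DPt.dec (DioFn.var 2) (DioFn.var 3)
  have pA : DPt (fun v => dec (v 4) (v 5)) := DPt.dec (DioFn.var 4) (DioFn.var 5)
  have hF' := hF.tl.tl.tl.tl.tl.tl
  have hG' := hG.tl.tl.tl.tl.tl.tl
  have hH' := hH.tl.tl.tl.tl.tl.tl
  exact (rdio_sq hC hEv B J hF' pA).and ((rdio_sq hC hEv B J hG' pC).and
    ((rdio_sq hC hEv B J (hF'.add hG') pD).and
    (RDio.of_dio hC (dio_pt_eq pD ((pA.add pC).add (hH'.nsmul 2))))))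

theorem rowC1_of (hEv : ∀ V : EC.Point, EvPt V ↔ ∃ W : EC.Point, V = W + W) : RowC1 := by
  intro B J F G H hF hG hH
  exact rdio_mul (fun R hR => by simpa using hR.int 0) hEv B J hF hG hH

end Vale.Agent.P027.E5
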