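import Vale.Agent.P027.R5.E5.Defs

set_option linter.all false

/-! Divisibility of indices and powers of two for the larger class. -/

namespace Vale.Agent.P027.E5

open Vale.Agent.P345 Vale.Agent.P027 Vale.Agent.P027.HT Vale.Agent.P027.D1 Vale.Agent.P027.D5

theorem odd_LL (B C : ℕ) : Odd (LL B C) := by
  rw [← Nat.not_even_iff_odd, even_iff_two_dvd]
  intro h
  exact (prime_dvd_LL Nat.prime_two h).2 (dvd_mul_right 2 C)

theorem coprime_of_forall {a b : ℕ} (h : ∀ p : ℕ, p.Prime → p ∣ a → ¬ p ∣ b) :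
    Nat.Coprime a b := by
  by_contra hcon
  obtain ⟨p, hp, h1, h2⟩ := Nat.Prime.not_coprime_iff_dvd.1 hcon
  exact h p hp h1 h2

theorem le_of_pow_dvd {r e k n : ℕ} (hr : r.Prime) (hn : ¬ r ∣ n) (h : r ^ k ∣ r ^ e * n) :
    k ≤ e := by
  by_contra hcon
  push Not at hcon
  have h1 : r ^ (e + 1) ∣ r ^ e * n := (pow_dvd_pow r hcon).trans h
  rw [pow_succ] at h1
  exact hn (Nat.dvd_of_mul_dvd_mul_left (pow_pos hr.pos e) h1)

theorem xc_natAbs (C : ℤ) (N : ℤ) : xc ((C * (N.natAbs : ℤ)) • P0) = xc ((C * N) • P0) := by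
  rcases Int.natAbs_eq N with h | h
  · rw [← h]
  · have e : C * N = -(C * (N.natAbs : ℤ)) := by
      rw [← mul_neg, ← h]
    rw [e, neg_zsmul, xc_neg]

theorem relP_sound {B C : ℕ} {R : Set ℚ} (hR : Cls B C R) {N M : ℤ}
    (hN : ∀ r : ℕ, r.Prime → (r : ℤ) ∣ N → ¬ r ∣ 2 * C)
    (h : RelP B C R ((2 * N) • P0) ((2 * M) • P0)) : N ∣ M := by
  obtain ⟨h, h'⟩ := h
  rcases h with h | ⟨h1, h2, h3⟩
  · rw [ev_zero_iff] at h
    rw [h]; exact dvd_zero _
  have hM0 : M ≠ 0 := fun h => h2 (by rw [h]; simp)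
  have hN0 : N ≠ 0 := fun h => h1 (by rw [h]; simp)
  have hc0 : ((C * LL B C : ℕ) : ℤ) ≠ 0 := by
    have := LL_pos B C
    have := hR.pos
    positivity
  rw [nsmul_ev, nsmul_ev] at h3
  rw [← Int.natAbs_dvd_natAbs, Nat.dvd_iff_prime_pow_dvd_dvd]
  intro r e' hr hre'
  rcases Nat.eq_zero_or_pos e' with rfl | he'
  · simp
  have hN1 : N.natAbs ≠ 0 := Int.natAbs_ne_zero.2 hN0
  obtain ⟨e, n', hn', hne⟩ := Nat.exists_eq_pow_mul_and_not_dvd hN1 r hr.one_lt.ne'
  have hee' : e' ≤ e := le_of_pow_dvd hr hn' (by rw [← hne]; exact hre')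
  have he : 1 ≤ e := le_trans he' hee'
  refine (pow_dvd_pow r hee').trans ?_
  have hrN : r ∣ N.natAbs := (dvd_pow_self r (by omega)).trans hre'
  have hr2 : ¬ r ∣ 2 * C := hN r hr (Int.natCast_dvd.2 hrN)
  obtain ⟨f, c', hL, hc, hB⟩ := exists_exp (B := B) hr hr2
  -- the number
  have hcop : Nat.Coprime (LL B C * N.natAbs) (2 * C) := by
    refine coprime_of_forall (fun p hp hpd => ?_)
    rcases (hp.dvd_mul).1 hpd with h | h
    · exact (prime_dvd_LL hp h).2
    · exact hN p hp (Int.natCast_dvd.2 h)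
  have hneq : LL B C * N.natAbs = r ^ (e + f) * (c' * n') := by
    rw [hL, hne, pow_add]; ring
  have hrcn : ¬ r ∣ c' * n' := by
    intro h
    rcases (hr.dvd_mul).1 h with h | h
    · exact hc h
    · exact hn' h
  obtain ⟨q, m, hq, hqj, hrm, hmn, hcase⟩ := hR.live (LL B C * N.natAbs) r (e + f)
    (Nat.mul_pos (LL_pos B C) (Nat.pos_of_ne_zero hN1)) hcop hr (by omega)
    (by rw [hneq]; exact dvd_mul_right _ _)
    (by
      intro h
      rw [hneq] at h
      have := le_of_pow_dvd hr hrcn h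
      omega) (hB e he)
  have hqf : Fact q.Prime := ⟨hq⟩
  have hdv : Dv q (2 * (((C * LL B C : ℕ) : ℤ) * N)) := by
    rw [hqj.2, Int.natCast_dvd, Int.natAbs_mul, Int.natAbs_mul, Int.natAbs_natCast]
    refine hmn.trans (dvd_of_eq ?_)
    show 2 * C * (LL B C * N.natAbs) = 2 * (C * LL B C * N.natAbs)
    ring
  have hdv' : Dv q (2 * (((C * LL B C : ℕ) : ℤ) * M)) := by
    rw [← den_pos_iff (mul_ne_zero hc0 hM0)]
    rcases hcase with hqR | ⟨hCo, h5, hv⟩
    · rw [← den_pos_iff (mul_ne_zero hc0 hN0)] at hdv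
      exact denDvd_sound h3 hq hqR hdv
    · have hNo : Odd N := by
        rw [← Int.not_even_iff_odd, even_iff_two_dvd]
        intro h
        exact hN 2 Nat.prime_two (by exact_mod_cast h) (dvd_mul_right 2 C)
      have hodd : Odd (((C * LL B C : ℕ) : ℤ) * N) := by
        have h6 : Odd ((C * LL B C : ℕ) : ℤ) := by exact_mod_cast hCo.mul (odd_LL B C)
        exact h6.mul hNo
      rcases h' hCo with h' | h'
      · exact absurd h' h2
      · rw [nsmul_ev, nsmul_ev] at h'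
        refine d5p_sound h5 hodd (mul_ne_zero hc0 hM0) ?_ h'
        have e1 : ((C : ℤ) * ((LL B C * N.natAbs : ℕ) : ℤ)) =
            ((C * LL B C : ℕ) : ℤ) * (N.natAbs : ℤ) := by push_cast; ring
        rw [e1, xc_natAbs] at hv
        exact hv
  rw [hqj.2] at hdv'
  have hco : Nat.Coprime (r ^ e) (2 * C * c') := by
    refine Nat.Coprime.pow_left e ?_
    rw [Nat.Prime.coprime_iff_not_dvd hr]
    intro h
    rcases (hr.dvd_mul).1 h with h | h
    · exact hr2 h
    · exact hc h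
  have h6 : r ^ (e + f) ∣ 2 * (C * LL B C * M.natAbs) := by
    have h7 : ((r ^ (e + f) : ℕ) : ℤ) ∣ 2 * (((C * LL B C : ℕ) : ℤ) * M) :=
      (Int.natCast_dvd_natCast.2 hrm).trans hdv'
    have h8 := Int.natCast_dvd.1 h7
    rw [Int.natAbs_mul, Int.natAbs_mul, Int.natAbs_natCast] at h8
    exact h8
  have h9 : r ^ f * r ^ e ∣ r ^ f * ((2 * C * c') * M.natAbs) := by
    rw [← pow_add, add_comm f e]
    rw [hL] at h6
    refine h6.trans (dvd_of_eq ?_)
    ring
  have h10 := Nat.dvd_of_mul_dvd_mul_left (pow_pos hr.pos f) h9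
  exact hco.dvd_of_dvd_mul_left h10

theorem relP_complete {B C : ℕ} {R : Set ℚ} (hR : Cls B C R) {N M : ℤ} (hN : Odd N)
    (h : N ∣ M) : RelP B C R ((2 * N) • P0) ((2 * M) • P0) := by
  have hN0 : N ≠ 0 := by rintro rfl; exact absurd hN (by decide)
  by_cases hM : M = 0
  · exact ⟨Or.inl (by rw [hM]; simp), fun _ => Or.inl (by rw [hM]; simp)⟩
  have hc0 : ((C * LL B C : ℕ) : ℤ) ≠ 0 := by
    have := LL_pos B C
    have := hR.pos
    positivity
  refine ⟨Or.inr ⟨ev_ne hN0, ev_ne hM, denDvd_complete hR.int ?_⟩, fun hCo => Or.inr ?_⟩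
  · obtain ⟨t, rfl⟩ := h
    have e : (C * LL B C) • ((2 * (N * t)) • P0) = t • ((C * LL B C) • ((2 * N) • P0)) := by
      rw [nsmul_ev, nsmul_ev, ← mul_zsmul]
      congr 1
      ring
    rw [e]
    refine den_dvd_smul ?_ ?_
    · rw [nsmul_ev]; exact ev_ne (mul_ne_zero hc0 hN0)
    · rw [← e, nsmul_ev]; exact ev_ne (mul_ne_zero hc0 hM)
  · rw [nsmul_ev, nsmul_ev]
    have h6 : Odd ((C * LL B C : ℕ) : ℤ) := by exact_mod_cast hCo.mul (odd_LL B C)
    exact d5p_complete (h6.mul hN) (mul_ne_zero hc0 hM) (mul_dvd_mul_left _ h)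

/-! ### Powers of two -/

theorem powP_sound {B C : ℕ} {R : Set ℚ} (hR : Cls B C R) {N : ℤ}
    (h : PowP B C R ((2 * N) • P0)) : D1.IsP N := by
  obtain ⟨⟨-, h0, hx, c, hc, hco, K, ⟨K', rfl⟩, hK⟩, hP5⟩ := h
  have hN0 : N ≠ 0 := fun h => h0 (by rw [h]; simp)
  have hN : N = c + MM B C * K' := by
    have e : c • ((2 : ℕ) • P0) + MM B C • ((2 * K') • P0) = (2 * (c + MM B C * K')) • P0 := by
      rw [nsmul_ev, ← natCast_zsmul, ← natCast_zsmul, ← mul_zsmul, ← add_zsmul]
      congr 1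
      push_cast
      ring
    rw [e] at hK
    exact ev_inj hK
  have hC0 : ((C : ℕ) : ℤ) ≠ 0 := by exact_mod_cast hR.pos.ne'
  -- no odd prime factor divides `2 C` or is small
  have hbig : ∀ r : ℕ, r.Prime → r ≠ 2 → (r : ℤ) ∣ N → B + C < r ∧ ¬ r ∣ 2 * C := by
    intro r hr hr2 hrN
    have hrM : ¬ r ∣ MM B C := by
      intro h
      have h1 : (r : ℤ) ∣ (c : ℤ) := by
        have h3 : (r : ℤ) ∣ (MM B C : ℤ) * K' := (Int.natCast_dvd_natCast.2 h).mul_right _
        rw [hN] at hrN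
        exact (dvd_add_left h3).1 hrN
      have h4 := Nat.dvd_gcd (Int.natCast_dvd_natCast.1 h1) h
      rw [hco.gcd_eq_one] at h4
      exact hr.one_lt.ne' (Nat.dvd_one.1 h4)
    have hrB : B + C < r := by
      by_contra hcon
      exact hrM (dvd_MM hr hr2 (by omega))
    refine ⟨hrB, fun h => ?_⟩
    rcases (hr.dvd_mul).1 h with h | h
    · exact hr2 ((Nat.prime_dvd_prime_iff_eq hr Nat.prime_two).1 h)
    · have := Nat.le_of_dvd hR.pos h
      omega
  obtain ⟨j, m, hm, hNm⟩ := exists_odd_part hN0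
  have hm0 : m ≠ 0 := by rintro rfl; exact absurd hm (by decide)
  have hm1 : m.natAbs ≠ 0 := Int.natAbs_ne_zero.2 hm0
  have hmN : m ∣ N := ⟨2 ^ j, by rw [hNm]; ring⟩
  have hpm : ∀ r : ℕ, r.Prime → r ∣ m.natAbs → r ≠ 2 := by
    rintro r hr hrm rfl
    rw [← Int.not_even_iff_odd, even_iff_two_dvd] at hm
    exact hm (by exact_mod_cast Int.natCast_dvd.2 hrm)
  have hcop : Nat.Coprime m.natAbs (2 * C) := by
    refine coprime_of_forall (fun r hr hrm => ?_)
    exact (hbig r hr (hpm r hr hrm) ((Int.natCast_dvd.2 hrm).trans hmN)).2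
  -- the odd part is one
  have hone : m.natAbs = 1 := by
    by_contra hcon
    obtain ⟨r, hr, hrm⟩ := Nat.exists_prime_and_dvd hcon
    obtain ⟨e, n', hn', hne⟩ := Nat.exists_eq_pow_mul_and_not_dvd hm1 r hr.one_lt.ne'
    have he : 1 ≤ e := by
      by_contra hcon
      have h1 : e = 0 := by omega
      rw [h1, pow_zero, one_mul] at hne
      exact hn' (by rw [← hne]; exact hrm)
    obtain ⟨hrB, hrC⟩ := hbig r hr (hpm r hr hrm) ((Int.natCast_dvd.2 hrm).trans hmN)
    have hBe : B < r ^ e := by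
      calc B < r := by omega
        _ = r ^ 1 := (pow_one r).symm
        _ ≤ r ^ e := Nat.pow_le_pow_right hr.pos he
    obtain ⟨q, k, hq, hqj, hrk, hkn, hcase⟩ := hR.live m.natAbs r e (Nat.pos_of_ne_zero hm1) hcop
      hr he (by rw [hne]; exact dvd_mul_right _ _)
      (by
        intro h
        rw [hne] at h
        have := le_of_pow_dvd hr hn' h
        omega) hBe
    have hqf : Fact q.Prime := ⟨hq⟩
    have hkN : (k : ℤ) ∣ 2 * ((C : ℤ) * N) := by
      have h1 : (k : ℤ) ∣ ((2 * C * m.natAbs : ℕ) : ℤ) := Int.natCast_dvd_natCast.2 hkn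
      refine h1.trans ?_
      push_cast
      rw [mul_assoc]
      refine mul_dvd_mul_left _ (mul_dvd_mul_left _ ?_)
      exact (abs_dvd _ _).2 hmN
    rcases hcase with hqR | ⟨hCo, h5, hv⟩
    · refine hqR _ hx ?_
      rw [nsmul_ev, den_pos_iff (mul_ne_zero hC0 hN0), hqj.2]
      exact hkN
    · have h1 := p5_sound hR.pos hN0 (hP5 hCo) h5
      have hCoZ : Odd (C : ℤ) := by exact_mod_cast hCo
      have h2 : padicValRat q (xc ((2 * (C * N)) • P0)) = padicValRat q (xc ((C * m) • P0)) := by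
        have e1 : 2 * ((C : ℤ) * N) = 2 ^ (j + 1) * (C * m) := by rw [hNm]; ring
        rw [e1]
        exact val_two_pow5 h5 (hCoZ.mul hm) (j + 1)
      have h3 : padicValRat q (xc ((2 * C : ℤ) • P0)) = padicValRat q (xc ((C : ℤ) • P0)) := by
        have e1 : 2 * (C : ℤ) = 2 ^ 1 * C := by rw [pow_one]
        rw [e1]
        exact val_two_pow5 h5 hCoZ 1
      have h4 : padicValRat q (xc ((C : ℤ) • P0)) = 0 := by
        have h6 : ¬ q ∣ (xc ((C : ℤ) • P0)).den := by
          intro h7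
          have h8 : Dv q (C : ℤ) := Or.inr h7
          rw [hqj.2] at h8
          have h9 : r ∣ C := (dvd_pow_self r (by omega)).trans
            (hrk.trans (Int.natCast_dvd_natCast.1 h8))
          exact hrC (h9.mul_left 2)
        rw [dvd_den_iff, not_lt] at h6
        have h7 := le_antisymm h6 (norm_ge (q := q) h5 hC0)
        have h8 : padicNorm q (xc ((C : ℤ) • P0)) = padicNorm q 1 := by rw [h7, padicNorm.one]
        rw [pn_eq_iff (xc_ne _ hC0) one_ne_zero, padicValRat.one] at h8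
        exact h8
      rw [xc_natAbs] at hv
      rw [h2, h3, h4] at h1
      omega
  refine ⟨j, ?_⟩
  rcases Int.natAbs_eq m with h2 | h2
  · left
    rw [hone, Nat.cast_one] at h2
    rw [hNm, h2, mul_one]
  · right
    rw [hone, Nat.cast_one] at h2
    rw [hNm, h2, mul_neg, mul_one]

theorem powP_complete {B C : ℕ} {R : Set ℚ} (hR : Cls B C R) {N : ℤ} (hN : D1.IsP N) :
    PowP B C R ((2 * N) • P0) := by
  refine ⟨?_, fun hC => p5_complete hC hN⟩
  have hN0 : N ≠ 0 := by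
    rcases hN.eq with h | h
    · rw [h]; positivity
    · rw [h]; simp
  have hL := MM_pos B C
  refine ⟨⟨N, rfl⟩, ev_ne hN0, ?_, (N % MM B C).toNat, ?_, ?_, (2 * (N / MM B C)) • P0,
    ⟨_, rfl⟩, ?_⟩
  · obtain ⟨k, hk | hk⟩ := hN
    · have h1 := hR.two (k + 1) (by omega)
      rw [nsmul_ev]
      have e : 2 * ((C : ℤ) * N) = C * 2 ^ (k + 1) := by
        rw [hk]; ring
      rw [e]; exact h1
    · have h1 := hR.two (k + 1) (by omega)
      rw [nsmul_ev]
      have e : 2 * ((C : ℤ) * N) = -(C * 2 ^ (k + 1)) := by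
        rw [hk]; ring
      rw [e, neg_zsmul, xc_neg]; exact h1
  · have h1 := Int.emod_lt_of_pos N (by exact_mod_cast hL : (0 : ℤ) < MM B C)
    have h2 := Int.emod_nonneg N (by exact_mod_cast hL.ne' : (MM B C : ℤ) ≠ 0)
    omega
  · have h2 := Int.emod_nonneg N (by exact_mod_cast hL.ne' : (MM B C : ℤ) ≠ 0)
    have h3 : IsCoprime (N % MM B C) (MM B C : ℤ) := by
      have h4 : IsCoprime N (MM B C : ℤ) := by
        have h5 : IsCoprime (2 : ℤ) (MM B C : ℤ) := by
          have h6 : Nat.Coprime 2 (MM B C) := Nat.coprime_two_left.2 (odd_MM B C)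
          exact_mod_cast Nat.isCoprime_iff_coprime.2 h6
        obtain ⟨k, hk | hk⟩ := hN
        · rw [hk]; exact h5.pow_left
        · rw [hk]; exact h5.pow_left.neg_left
      have h7 : N = N % MM B C + (N / MM B C) * MM B C := by
        rw [mul_comm]; exact (Int.emod_add_mul_ediv N (MM B C)).symm
      rw [h7] at h4
      exact IsCoprime.of_add_mul_right_left h4
    have h8 : (((N % MM B C).toNat : ℕ) : ℤ) = N % MM B C := Int.toNat_of_nonneg h2
    rw [← h8] at h3
    exact Nat.isCoprime_iff_coprime.1 h3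
  · have h2 := Int.emod_nonneg N (by exact_mod_cast hL.ne' : (MM B C : ℤ) ≠ 0)
    have h8 : (((N % MM B C).toNat : ℕ) : ℤ) = N % MM B C := Int.toNat_of_nonneg h2
    rw [nsmul_ev, ← natCast_zsmul, ← natCast_zsmul, ← mul_zsmul, ← add_zsmul, h8]
    congr 1
    have h9 := Int.emod_add_mul_ediv N (MM B C)
    push_cast
    linarith

end Vale.Agent.P027.E5
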