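import Vale.Agent.P027.R5.E5.Defs

/-!
P027-THIN, row F (helper712): the calculus of the predicates `RDio (Cls B J)`.
-/

set_option autoImplicit false
set_option linter.all false

namespace Vale.Agent.P027.E5.H712

open MvPolynomial Vale.Agent.P345 Vale.Agent.P027 Vale.Agent.P027.HT Vale.Agent.P027.D1

variable {B J : ℕ}

/-- the calculus for the class `Cls B J` -/
abbrev RD (B J : ℕ) (S : Set ℚ → (ℕ → ℚ) → Prop) : Prop := RDio (Cls B J) S

theorem zero_mem {R : Set ℚ} (h : Cls B J R) : (0 : ℚ) ∈ R := by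
  have := h.int 0
  simpa using this

theorem RD.congr {S T : Set ℚ → (ℕ → ℚ) → Prop} (h : RD B J S)
    (e : ∀ R, Cls B J R → ∀ v, T R v ↔ S R v) : RD B J T := by
  obtain ⟨p, hp⟩ := h
  exact ⟨p, fun R hR v => (e R hR v).trans (hp R hR v)⟩

theorem RD.of_dio {S : (ℕ → ℚ) → Prop} (h : Dio S) : RD B J (fun _ => S) := by
  obtain ⟨p, hp⟩ := h
  refine ⟨rename (Sum.map id (fun i => (i, 0))) p, fun R hR v => ?_⟩
  have key : ∀ (y : ℕ → Fin 2 → ℚ),
      envR v y ∘ Sum.map id (fun i => (i, 0)) = Sum.elim v (fun i => y i 0) := by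
    intro y; funext i; rcases i with i | i <;> rfl
  simp only [aeval_rename, key, hp]
  constructor
  · rintro ⟨y, hy⟩
    exact ⟨fun i => ![y i, 0], by simpa only [Fin.isValue, Matrix.cons_val_zero] using hy,
      fun i => zero_mem hR⟩
  · rintro ⟨y, hy, -⟩
    exact ⟨_, hy⟩

theorem RD.and {S T : Set ℚ → (ℕ → ℚ) → Prop} (hS : RD B J S) (hT : RD B J T) :
    RD B J (fun R v => S R v ∧ T R v) := by
  obtain ⟨p, hp⟩ := hS
  obtain ⟨q, hq⟩ := hT
  refine ⟨(rename (Sum.map id (fun ij => (2 * ij.1, ij.2))) p) ^ 2 +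
    (rename (Sum.map id (fun ij => (2 * ij.1 + 1, ij.2))) q) ^ 2, fun R hR v => ?_⟩
  have key : ∀ (y : ℕ → Fin 2 → ℚ) (g : ℕ → ℕ),
      envR v y ∘ Sum.map id (fun ij : ℕ × Fin 2 => (g ij.1, ij.2)) = envR v (fun i => y (g i)) := by
    intro y g; funext i; rcases i with i | i <;> rfl
  simp only [map_add, map_pow, aeval_rename, key _ (fun i => 2 * i), key _ (fun i => 2 * i + 1),
    hp R hR, hq R hR]
  constructor
  · rintro ⟨⟨y, hy, hy'⟩, ⟨z, hz, hz'⟩⟩
    refine ⟨fun i => if i % 2 = 0 then y (i / 2) else z (i / 2), ?_, ?_⟩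
    · have e1 : (fun i => (fun i : ℕ => if i % 2 = 0 then y (i / 2) else z (i / 2)) (2 * i)) = y := by
        funext i
        have h1 : (2 * i) % 2 = 0 := by omega
        have h2 : (2 * i) / 2 = i := by omega
        simp only [h1, h2, if_true]
      have e2 : (fun i => (fun i : ℕ => if i % 2 = 0 then y (i / 2) else z (i / 2)) (2 * i + 1)) =
          z := by
        funext i
        have h1 : (2 * i + 1) % 2 = 1 := by omega
        have h2 : (2 * i + 1) / 2 = i := by omega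
        simp only [h1, h2, one_ne_zero, if_false]
      rw [e1, e2, hy, hz]; norm_num
    · intro i
      beta_reduce
      split_ifs
      · exact hy' _
      · exact hz' _
  · rintro ⟨y, hy, hy'⟩
    have h1 := sq_nonneg (aeval (envR v fun i => y (2 * i)) p : ℚ)
    have h2 := sq_nonneg (aeval (envR v fun i => y (2 * i + 1)) q : ℚ)
    exact ⟨⟨_, pow_eq_zero_iff (n := 2) (by norm_num) |>.1 (by linarith only [h1, hy, h2]), fun i => hy' _⟩,
      ⟨_, pow_eq_zero_iff (n := 2) (by norm_num) |>.1 (by linarith), fun i => hy' _⟩⟩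

theorem RD.ren {S : Set ℚ → (ℕ → ℚ) → Prop} (hS : RD B J S) (r : ℕ → ℕ) :
    RD B J (fun R v => S R (fun i => v (r i))) := by
  obtain ⟨p, hp⟩ := hS
  refine ⟨rename (Sum.map r id) p, fun R hR v => ?_⟩
  have key : ∀ (y : ℕ → Fin 2 → ℚ),
      envR v y ∘ Sum.map r id = envR (fun i => v (r i)) y := by
    intro y; funext i; rcases i with i | i <;> rfl
  simp only [aeval_rename, key, hp R hR]

theorem RD.ex {S : Set ℚ → ℚ → (ℕ → ℚ) → Prop}
    (hS : RD B J (fun R v => S R (v 0) (tl v))) : RD B J (fun R v => ∃ x, S R x v) := by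
  obtain ⟨p, hp⟩ := hS
  refine ⟨rename (Sum.elim (fun i => Nat.rec (Sum.inr (0, 0)) (fun j _ => Sum.inl j) i)
    (fun ij => Sum.inr (ij.1 + 1, ij.2))) p, fun R hR v => ?_⟩
  have key : ∀ (y : ℕ → Fin 2 → ℚ),
      envR v y ∘ (Sum.elim (fun i => Nat.rec (Sum.inr (0, 0)) (fun j _ => Sum.inl j) i)
        (fun ij => Sum.inr (ij.1 + 1, ij.2))) = envR (cns (y 0 0) v) (fun i => y (i + 1)) := by
    intro y; funext i; rcases i with i | i
    · cases i <;> rfl
    · rfl
  simp only [aeval_rename, key]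
  constructor
  · rintro ⟨x, hx⟩
    obtain ⟨y, hy, hy'⟩ := (hp R hR (cns x v)).1 hx
    obtain ⟨z, hz0, hz1, hz⟩ : ∃ z : ℕ → Fin 2 → ℚ, z 0 0 = x ∧ z 0 1 = 0 ∧
        (fun i => z (i + 1)) = y :=
      ⟨fun i => Nat.rec ![x, 0] (fun j _ => y j) i, rfl, rfl, rfl⟩
    refine ⟨z, ?_, fun i => ?_⟩
    · rw [hz0, hz]; exact hy
    rcases i with _ | i
    · rw [hz1]; exact zero_mem hR
    · have := hy' i
      rw [← hz] at this
      exact this
  · rintro ⟨y, hy, hy'⟩
    have h1 : ∃ z : ℕ → Fin 2 → ℚ, aeval (envR (cns (y 0 0) v) z) p = 0 ∧ ∀ i, z i 1 ∈ R :=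
      ⟨fun i => y (i + 1), hy, fun i => hy' (i + 1)⟩
    exact ⟨y 0 0, (hp R hR (cns (y 0 0) v)).2 h1⟩

/-- quantification over points -/
theorem RD.exP {S : Set ℚ → EC.Point → (ℕ → ℚ) → Prop}
    (hS : RD B J (fun R v => S R (dec (v 0) (v 1)) (tl (tl v)))) :
    RD B J (fun R v => ∃ P, S R P v) := by
  have h : RD B J (fun R v => ∃ y x, S R (dec x y) v) :=
    RD.ex (S := fun R y v => ∃ x, S R (dec x y) v)
      (RD.ex (S := fun R x v => S R (dec x (v 0)) (tl v)) hS)
  refine h.congr (fun R _ v => ⟨?_, ?_⟩)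
  · rintro ⟨P, hP⟩
    obtain ⟨x, y, e⟩ := exists_dec P
    exact ⟨y, x, by rw [e]; exact hP⟩
  · rintro ⟨y, x, h⟩
    exact ⟨_, h⟩

theorem RD.exN (N : ℕ) {S : Set ℚ → (ℕ → ℚ) → Prop} (hS : RD B J S) :
    RD B J (fun R v => ∃ u, S R (blk N u v)) := by
  induction N generalizing S with
  | zero =>
    refine hS.congr (fun R _ v => ?_)
    have e : ∀ u, blk 0 u v = v := fun u => by funext i; simp [blk]
    simp [e]
  | succ N ih =>
    have h1 : RD B J (fun R v => ∃ x, S R (cns x v)) :=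
      RD.ex (S := fun R x v => S R (cns x v)) (by simpa only [cns_tl] using hS)
    refine (ih h1).congr (fun R _ v => ?_)
    have e : ∀ u, blk (N + 1) u v = cns (u 0) (blk N (tl u) v) := by
      intro u
      funext i
      rcases i with _ | i
      · simp only [blk, lt_add_iff_pos_left, Order.lt_add_one_iff, zero_le, ↓reduceIte, cns_zero]
      · rw [cns_succ]
        simp only [blk, Nat.add_lt_add_iff_right, Nat.add_sub_add_right]
        rfl
    constructor
    · rintro ⟨u, hu⟩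
      rw [e] at hu
      exact ⟨tl u, u 0, hu⟩
    · rintro ⟨u, x, hu⟩
      refine ⟨cns x u, ?_⟩
      rw [e]
      exact hu

theorem RD.true : RD B J (fun _ _ => True) := RD.of_dio Dio.true

theorem RD.all_lt (N : ℕ) {S : ℕ → Set ℚ → (ℕ → ℚ) → Prop} (h : ∀ k, RD B J (S k)) :
    RD B J (fun R v => ∀ k < N, S k R v) := by
  induction N with
  | zero => exact RD.true.congr (fun R _ v => by simp)
  | succ N ih =>
    refine (ih.and (h N)).congr (fun R _ v => ?_)
    constructor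
    · intro h1
      exact ⟨fun k hk => h1 k (by omega), h1 N (by omega)⟩
    · rintro ⟨h1, h2⟩ k hk
      rcases Nat.lt_succ_iff_lt_or_eq.1 hk with h3 | rfl
      · exact h1 k h3
      · exact h2

end Vale.Agent.P027.E5.H712
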