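import Vale.Agent.P027.R5.E5.All
import Vale.Agent.P027.R4.H297.Cond

set_option linter.all false

/-! Undecidability, by one reduction for all sets of the larger class. -/

namespace Vale.Agent.P027.E5

open MvPolynomial Vale.Agent.P345 Vale.Agent.P027 Vale.Agent.P027.HT Vale.Agent.P027.D1

/-- output of row K -/
def RowK : Prop := ∃ (A : Set ℕ) (f : ℕ → Fin 3 → ℤ), REPred (fun a => a ∈ A) ∧
  ¬ REPred (fun a => a ∉ A) ∧ (∀ B : Set ℕ, REPred (fun n => n ∈ B) →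
    ∃ g : ℕ → ℕ, Computable g ∧ ∀ n, (n ∈ B ↔ g n ∈ A)) ∧ Computable f ∧
  ∀ B J : ℕ, ∃ (m r : ℕ) (G : MvPolynomial (Fin 3 ⊕ Fin m ⊕ Fin r) ℤ), ∀ R R' : Set ℚ,
    Cls B J R → (∀ z : ℤ, (z : ℚ) ∈ R') → ∀ a : ℕ,
    (a ∈ A ↔ ∃ (u : Fin m → ℚ) (y : Fin r → ℚ), (∀ i, u i ∈ R) ∧ (∀ j, y j ∈ R') ∧
      aeval (Sum.elim (fun i => (f a i : ℚ)) (Sum.elim u y)) G = 0)

theorem rowK (hF : RowF) : RowK := by
  obtain ⟨P, hp, huniv⟩ := universal_re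
  obtain ⟨f, hf, hfP⟩ := Vale.Agent.P027.R4.H297.exists_coord
  refine ⟨{a | P a}, f, hp, ?_, fun B hB => ?_, hf, fun B J => ?_⟩
  · intro h
    obtain ⟨q, hq, hqn⟩ := N1.halting
    obtain ⟨g, hg, hgq⟩ := huniv q hq
    apply hqn
    have h1 : REPred (fun n => ¬ P (g n)) := N1.comp_re h hg
    exact h1.of_eq (fun n => by rw [← hgq n])
  · obtain ⟨g, hg, hgB⟩ := huniv _ hB
    exact ⟨g, hg, hgB⟩
  · have hS : REPred (fun a : Fin 1 → ℤ => a ∈ {a : Fin 1 → ℤ | P (a 0).toNat}) := by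
      have h1 : Computable (fun a : Fin 1 → ℤ => (a 0).toNat) :=
        (primrec_toNat.comp (Primrec.fin_app.comp Primrec.id (Primrec.const 0))).to_comp
      exact N1.comp_re hp h1
    obtain ⟨m, r, F, hF⟩ := hF B J 1 _ hS
    obtain ⟨G, d, hG⟩ := homog F
    refine ⟨m, r, G, fun R R' hR hR' a => ?_⟩
    obtain ⟨h2, e, h3⟩ := hfP a
    have h2' : (f a 2 : ℚ) ≠ 0 := by exact_mod_cast h2
    have key := hF R R' hR hR' (fun ij => (f a (Fin.castSucc ij.2) : ℚ) / f a 2)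
    have h4 : (∃ (u : Fin m → ℚ) (y : Fin r → ℚ), (∀ i, u i ∈ R) ∧ (∀ j, y j ∈ R') ∧
        aeval (Sum.elim (fun i => (f a i : ℚ)) (Sum.elim u y)) G = 0) ↔
        ∃ (u : Fin m → ℚ) (y : Fin r → ℚ), (∀ i, u i ∈ R) ∧ (∀ j, y j ∈ R') ∧
        aeval (Sum.elim (fun ij : Fin 1 × Fin 2 => (f a (Fin.castSucc ij.2) : ℚ) / f a 2)
          (Sum.elim u y)) F = 0 := by
      refine exists_congr fun u => exists_congr fun y => and_congr_right fun _ =>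
        and_congr_right fun _ => ?_
      rw [hG (fun i => (f a i : ℚ)) (Sum.elim u y) h2', mul_eq_zero_iff_left (pow_ne_zero _ h2')]
    rw [h4, ← key]
    constructor
    · intro ha
      refine ⟨fun _ => (a : ℤ), by simpa using ha, fun i => ⟨e, ?_⟩⟩
      exact h3.symm
    · rintro ⟨b, hb, hab⟩
      obtain ⟨e', h5⟩ := hab 0
      have h6 : (2 * (a : ℤ) + 1) • P0 = (2 * b 0 + 1) • P0 := by
        rw [h3, ← h5]
        rfl
      have h7 : (2 * (a : ℤ) + 1 - (2 * b 0 + 1)) • P0 = 0 := by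
        rw [sub_zsmul, h6]
        exact add_neg_cancel _
      have h8 : b 0 = (a : ℤ) := by
        by_contra hne
        exact zsmul_P0_ne_zero (by omega) h7
      have h9 : P (b 0).toNat := hb
      rw [h8] at h9
      simpa using h9

theorem rowX_undec (hF : RowF) : ∃ (A : Set ℕ) (f : ℕ → Fin 3 → ℤ), REPred (fun a => a ∈ A) ∧
    ¬ REPred (fun a => a ∉ A) ∧ (∀ B : Set ℕ, REPred (fun n => n ∈ B) →
      ∃ g : ℕ → ℕ, Computable g ∧ ∀ n, (n ∈ B ↔ g n ∈ A)) ∧ Computable f ∧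
    (∀ B J : ℕ, ∃ (m r : ℕ) (G : MvPolynomial (Fin 3 ⊕ Fin m ⊕ Fin r) ℤ), ∀ R R' : Set ℚ,
      Cls B J R → (∀ z : ℤ, (z : ℚ) ∈ R') → ∀ a : ℕ,
      (a ∈ A ↔ ∃ (u : Fin m → ℚ) (y : Fin r → ℚ), (∀ i, u i ∈ R) ∧ (∀ j, y j ∈ R') ∧
        aeval (Sum.elim (fun i => (f a i : ℚ)) (Sum.elim u y)) G = 0)) ∧
    ∀ (B J : ℕ) (R : Set ℚ), Cls B J R → DioQ R →
      ∃ (r : ℕ) (G : MvPolynomial (Fin 3 ⊕ Fin r) ℤ), ∀ a : ℕ,
        (a ∈ A ↔ ∃ y : Fin r → ℚ, aeval (Sum.elim (fun i => (f a i : ℚ)) y) G = 0) := by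
  obtain ⟨A, f, h1, h2, h3, h4, h5⟩ := rowK hF
  refine ⟨A, f, h1, h2, h3, h4, h5, fun B J R hR hdio => ?_⟩
  obtain ⟨m, r, G, h⟩ := h5 B J
  obtain ⟨r', G', h'⟩ := elim_dio G hdio
  exact ⟨r', G', fun a => by rw [h' _, h R Set.univ hR (fun _ => Set.mem_univ _) a]⟩

end Vale.Agent.P027.E5
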