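import Vale.Agent.P027.R5.H788.D5

set_option linter.all false

/-! The larger class of the sets `R`, and the predicates for it. -/

namespace Vale.Agent.P027.E5

open MvPolynomial Vale.Agent.P345 Vale.Agent.P027 Vale.Agent.P027.HT Vale.Agent.P027.D1
  Vale.Agent.P027.D5

/-- the larger class of the sets `R` -/
structure Cls (B C : ℕ) (R : Set ℚ) : Prop where
  pos : 0 < C
  int : ∀ z : ℤ, (z : ℚ) ∈ R
  two : ∀ k : ℕ, 1 ≤ k → xc ((C * 2 ^ k : ℤ) • P0) ∈ R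
  live : ∀ n r e : ℕ, 0 < n → Nat.Coprime n (2 * C) → r.Prime → 1 ≤ e → r ^ e ∣ n →
    ¬ r ^ (e + 1) ∣ n → B < r ^ e → ∃ q m : ℕ, q.Prime ∧ Ord q m ∧ r ^ e ∣ m ∧ m ∣ 2 * C * n ∧
      ((∀ t ∈ R, ¬ q ∣ t.den) ∨
        (Odd C ∧ q % 8 = 5 ∧ padicValRat q (xc ((C * n : ℤ) • P0)) % 4 = 2))

/-- divisibility of indices, for index of `V` prime to `2 C` -/
def RelP (B C : ℕ) (R : Set ℚ) (V W : EC.Point) : Prop :=
  D1.RelP B C R V W ∧ (Odd C → W = 0 ∨ D5P ((C * LL B C) • V) ((C * LL B C) • W))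

/-- indices plus or minus a power of two -/
def PowP (B C : ℕ) (R : Set ℚ) (V : EC.Point) : Prop :=
  D1.PowP B C R V ∧ (Odd C → P5P C V)

/-- index `x ^ 2` for index `x = -1` modulo `2 C` -/
def SqOP (B C : ℕ) (R : Set ℚ) (V W : EC.Point) : Prop :=
  ∃ N N2 N4 N8 : EC.Point, (PowP B C R N ∧ PowP B C R N2 ∧ PowP B C R N4 ∧ PowP B C R N8) ∧
    (∃ K, EvPt K ∧ N = 2 • K) ∧ (V2P N N2 ∧ V2P N2 N4 ∧ V2P N4 N8) ∧
    (OneP 3 N4 ∧ OneP 3 N8 ∧ OneP (MM B C) N4) ∧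
    RelP B C R V (N - 2 • P0) ∧ RelP B C R W (N - 2 • P0) ∧ RelP B C R (N4 - V) (N8 - W)

/-- index `x ^ 2` for arbitrary index `x` -/
def SqP (B C : ℕ) (R : Set ℚ) (V W : EC.Point) : Prop :=
  EvPt V ∧ EvPt W ∧
    SqOP B C R ((2 * C) • V - 2 • P0) ((4 * C ^ 2) • W - (4 * C) • V + 2 • P0)

/-- product of indices -/
def MulP (B C : ℕ) (R : Set ℚ) (V W Z : EC.Point) : Prop :=
  EvPt Z ∧ ∃ A D E : EC.Point, SqP B C R V A ∧ SqP B C R W D ∧ SqP B C R (V + W) E ∧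
    E = A + D + 2 • Z

/-- output of row G -/
def RowG : Prop := ∀ (B C : ℕ) (R : Set ℚ), Cls B C R → ∀ V W Z : EC.Point,
  (MulP B C R V W Z ↔
    ∃ m n : ℤ, V = (2 * m) • P0 ∧ W = (2 * n) • P0 ∧ Z = (2 * (m * n)) • P0)

/-- output of row C, first part: the predicates of row G are `RDio` -/
def RowC1 : Prop := ∀ (B J : ℕ) {F G H : (ℕ → ℚ) → EC.Point}, DPt F → DPt G → DPt H →
  RDio (Cls B J) (fun R v => MulP B J R (F v) (G v) (H v))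

/-- output of row F: one polynomial for a recursively enumerable set of tuples of integers, coded
by the points `(2 a + 1) P0` -/
def RowF : Prop := ∀ (B J k : ℕ) (S : Set (Fin k → ℤ)), REPred (fun a => a ∈ S) →
  ∃ (m r : ℕ) (F : MvPolynomial ((Fin k × Fin 2) ⊕ Fin m ⊕ Fin r) ℤ), ∀ R R' : Set ℚ, Cls B J R →
    (∀ z : ℤ, (z : ℚ) ∈ R') → ∀ z : Fin k × Fin 2 → ℚ,
    ((∃ a ∈ S, ∀ i, ∃ e : z (i, 1) ^ 2 = z (i, 0) ^ 3 - 2 * z (i, 0),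
        pt (z (i, 0)) (z (i, 1)) e = (2 * a i + 1) • P0) ↔
      ∃ (u : Fin m → ℚ) (y : Fin r → ℚ), (∀ i, u i ∈ R) ∧ (∀ j, y j ∈ R') ∧
        aeval (Sum.elim z (Sum.elim u y)) F = 0)

/-- the old class is contained in the larger one -/
theorem Cls.of_old {B C : ℕ} {R : Set ℚ} (h : D1.Cls B C R) : Cls B C R := by
  refine ⟨h.pos, h.int, h.two, fun n r e hn hco hr he h1 h2 hB => ?_⟩
  have hrC : ¬ r ∣ 2 * C := by
    intro h3
    have h4 : r ∣ n := (dvd_pow_self r (by omega)).trans h1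
    have h5 := Nat.dvd_gcd h4 h3
    rw [hco.gcd_eq_one] at h5
    exact hr.one_lt.ne' (Nat.dvd_one.1 h5)
  obtain ⟨q, hq, ⟨c, hc, ho⟩, hR⟩ := h.live r e hr hrC he hB
  exact ⟨q, c * r ^ e, hq, ho, dvd_mul_left _ _, mul_dvd_mul hc h1, Or.inl hR⟩

end Vale.Agent.P027.E5
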