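import Vale.Agent.P027.R5.E5.Calc

/-!
P027-THIN, row F (helper712): recursively enumerable sets of tuples of integers, coded by the
points `(2 a + 1) P0`, from the rows G (arithmetic), C1 and C2 (calculus).
-/

set_option autoImplicit false
set_option linter.all false

namespace Vale.Agent.P027.E5.H712

open MvPolynomial Vale.Agent.P345 Vale.Agent.P027 Vale.Agent.P027.HT Vale.Agent.P027.D1

variable {B J : ℕ}

lemma ix_sub (a : ℤ) : ix a - P0 = (2 * a) • P0 := by
  unfold ix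
  rw [add_zsmul, one_zsmul, add_sub_cancel_right]

lemma eq_ix_of_sub {A : EC.Point} {a : ℤ} (h : A - P0 = (2 * a) • P0) : A = ix a := by
  rw [← ix_sub] at h
  exact sub_left_injective h

lemma ix_sub_ix (a b : ℤ) : ix a - ix b + P0 = ix (a - b) := by
  unfold ix
  nth_rw 3 [← one_zsmul P0]
  rw [sub_eq_add_neg, ← neg_zsmul, ← add_zsmul, ← add_zsmul]
  congr 1
  ring

theorem rd_mulI (hG : RowG) (hC : RowC1) {A F G : (ℕ → ℚ) → EC.Point} (hA : DPt A) (hF : DPt F)
    (hG' : DPt G) : RD B J (fun _ v => MulI (A v) (F v) (G v)) := by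
  have h : RD B J (fun R v => MulP B J R (F v - P0) (G v - P0) (A v - P0)) :=
    hC B J (hF.sub (DPt.const P0)) (hG'.sub (DPt.const P0)) (hA.sub (DPt.const P0))
  refine h.congr (fun R hR v => ?_)
  rw [hG B J R hR]
  constructor
  · rintro ⟨a, b, h1, h2, h3⟩
    exact ⟨a, b, by rw [h2, ix_sub], by rw [h3, ix_sub], by rw [h1, ix_sub]⟩
  · rintro ⟨a, b, h1, h2, h3⟩
    exact ⟨a, b, eq_ix_of_sub h3, eq_ix_of_sub h1, eq_ix_of_sub h2⟩

theorem rd_sqIx (hG : RowG) (hC : RowC1) {A : (ℕ → ℚ) → EC.Point} (hA : DPt A) :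
    RD B J (fun _ v => ∃ a : ℤ, A v = ix (a * a)) := by
  have h : RD B J (fun _ v => ∃ B, MulI (A v) B B) :=
    RD.exP (S := fun _ B v => MulI (A v) B B) (rd_mulI hG hC hA.tl.tl (DPt.var 0) (DPt.var 0))
  refine h.congr (fun R _ v => ?_)
  constructor
  · rintro ⟨a, ha⟩
    exact ⟨ix a, a, a, ha, rfl, rfl⟩
  · rintro ⟨B, a, b, h1, h2, h3⟩
    have : a = b := ix_inj (h2.symm.trans h3)
    subst this
    exact ⟨a, h1⟩

theorem rd_natIx (hG : RowG) (hC : RowC1) {A : (ℕ → ℚ) → EC.Point} (hA : DPt A) :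
    RD B J (fun _ v => NatIx (A v)) := by
  have h : RD B J (fun _ v => ∃ B C D E, ((∃ a : ℤ, B = ix (a * a)) ∧ (∃ a : ℤ, C = ix (a * a))) ∧
      ((∃ a : ℤ, D = ix (a * a)) ∧ (∃ a : ℤ, E = ix (a * a))) ∧
        A v = B + C + D + E - 3 • P0) := by
    refine RD.exP (S := fun _ B v => ∃ C D E, ((∃ a : ℤ, B = ix (a * a)) ∧
      (∃ a : ℤ, C = ix (a * a))) ∧ ((∃ a : ℤ, D = ix (a * a)) ∧ (∃ a : ℤ, E = ix (a * a))) ∧
        A v = B + C + D + E - 3 • P0) ?_
    refine RD.exP (S := fun _ C v => ∃ D E, ((∃ a : ℤ, dec (v 0) (v 1) = ix (a * a)) ∧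
      (∃ a : ℤ, C = ix (a * a))) ∧ ((∃ a : ℤ, D = ix (a * a)) ∧ (∃ a : ℤ, E = ix (a * a))) ∧
        A (tl (tl v)) = dec (v 0) (v 1) + C + D + E - 3 • P0) ?_
    refine RD.exP (S := fun _ D v => ∃ E, ((∃ a : ℤ, dec (v 2) (v 3) = ix (a * a)) ∧
      (∃ a : ℤ, dec (v 0) (v 1) = ix (a * a))) ∧ ((∃ a : ℤ, D = ix (a * a)) ∧
      (∃ a : ℤ, E = ix (a * a))) ∧
        A (tl (tl (tl (tl v)))) = dec (v 2) (v 3) + dec (v 0) (v 1) + D + E - 3 • P0) ?_
    refine RD.exP (S := fun _ E v => ((∃ a : ℤ, dec (v 4) (v 5) = ix (a * a)) ∧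
      (∃ a : ℤ, dec (v 2) (v 3) = ix (a * a))) ∧ ((∃ a : ℤ, dec (v 0) (v 1) = ix (a * a)) ∧
      (∃ a : ℤ, E = ix (a * a))) ∧
        A (tl (tl (tl (tl (tl (tl v)))))) = dec (v 4) (v 5) + dec (v 2) (v 3) +
          dec (v 0) (v 1) + E - 3 • P0) ?_
    refine ((rd_sqIx hG hC (DPt.var 3)).and (rd_sqIx hG hC (DPt.var 2))).and
      (((rd_sqIx hG hC (DPt.var 1)).and (rd_sqIx hG hC (DPt.var 0))).and (RD.of_dio ?_))
    exact dio_pt_eq hA.tl.tl.tl.tl.tl.tl.tl.tl
      (((((DPt.var 3).add (DPt.var 2)).add (DPt.var 1)).add (DPt.var 0)).sub (DPt.const _))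
  refine h.congr (fun R _ v => ?_)
  constructor
  · rintro ⟨n, hn⟩
    obtain ⟨a, b, c, d, h⟩ := Nat.sum_four_squares n
    refine ⟨ix (a * a), ix (b * b), ix (c * c), ix (d * d), ⟨⟨a, rfl⟩, ⟨b, rfl⟩⟩,
      ⟨⟨c, rfl⟩, ⟨d, rfl⟩⟩, ?_⟩
    rw [hn, ← ix_four, ← h]
    congr 1
    push_cast
    ring
  · rintro ⟨B, C, D, E, ⟨⟨a, rfl⟩, ⟨b, rfl⟩⟩, ⟨⟨c, rfl⟩, ⟨d, rfl⟩⟩, h⟩
    refine ⟨(a * a + b * b + c * c + d * d).toNat, ?_⟩
    rw [h, ← ix_four, Int.toNat_of_nonneg]
    linarith only [sq_nonneg a, sq_nonneg b, sq_nonneg c, sq_nonneg d]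

/-- polynomial functions of indices -/
theorem rd_poly (hG : RowG) (hC : RowC1) {α : Type} (e : α → ℕ) {f : (α → ℕ) → ℤ} (hf : IsPoly f) :
    ∃ S, RD B J S ∧ ∀ R, Cls B J R → ∀ (v : ℕ → ℚ) (j : α → ℕ),
      (∀ i, dec (v (2 * e i + 2)) (v (2 * e i + 3)) = ix (j i)) →
        (S R v ↔ dec (v 0) (v 1) = ix (f j)) := by
  induction hf with
  | proj i =>
    refine ⟨fun _ v => dec (v 0) (v 1) = dec (v (2 * e i + 2)) (v (2 * e i + 3)),
      RD.of_dio (dio_dec_eq (DioFn.var _) (DioFn.var _) (DioFn.var _) (DioFn.var _)),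
      fun R _ v j h => ?_⟩
    show dec (v 0) (v 1) = dec (v (2 * e i + 2)) (v (2 * e i + 3)) ↔ dec (v 0) (v 1) = ix (j i)
    rw [h i]
  | const n =>
    refine ⟨fun _ v => dec (v 0) (v 1) = ix n,
      RD.of_dio (dio_pt_eq (DPt.var 0) (DPt.const _)), fun R _ v j h => Iff.rfl⟩
  | @sub f g _ _ ihf ihg =>
    obtain ⟨S, hS, hS'⟩ := ihf
    obtain ⟨T, hT, hT'⟩ := ihg
    refine ⟨fun R v => ∃ y x y' x', (S R (upd x y v) ∧ T R (upd x' y' v)) ∧
      dec (v 0) (v 1) = dec x y - dec x' y' + P0, ?_, fun R hR v j h => ?_⟩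
    · refine RD.ex (S := fun R y v => ∃ x y' x', (S R (upd x y v) ∧ T R (upd x' y' v)) ∧
        dec (v 0) (v 1) = dec x y - dec x' y' + P0) ?_
      refine RD.ex (S := fun R x w => ∃ y' x', (S R (upd x (w 0) (tl w)) ∧
        T R (upd x' y' (tl w))) ∧ dec (w 1) (w 2) = dec x (w 0) - dec x' y' + P0) ?_
      refine RD.ex (S := fun R y' w => ∃ x', (S R (upd (w 0) (w 1) (tl (tl w))) ∧
        T R (upd x' y' (tl (tl w)))) ∧ dec (w 2) (w 3) = dec (w 0) (w 1) - dec x' y' + P0) ?_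
      refine RD.ex (S := fun R x' w => (S R (upd (w 1) (w 2) (tl (tl (tl w)))) ∧
        T R (upd x' (w 0) (tl (tl (tl w))))) ∧
          dec (w 3) (w 4) = dec (w 1) (w 2) - dec x' (w 0) + P0) ?_
      refine RD.and (RD.and ?_ ?_) (RD.of_dio (dio_pt_eq (DPt.dec (DioFn.var 4) (DioFn.var 5)) ?_))
      · have := hS.ren (fun i => if i = 0 then 2 else if i = 1 then 3 else i + 4)
        refine this.congr (fun R _ v => ?_)
        have e1 : (fun i => v (if i = 0 then 2 else if i = 1 then 3 else i + 4)) =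
            upd (v 2) (v 3) (tl (tl (tl (tl v)))) := by
          funext i
          rcases i with _ | _ | i <;> rfl
        rw [e1]
        rfl
      · have := hT.ren (fun i => if i = 0 then 0 else if i = 1 then 1 else i + 4)
        refine this.congr (fun R _ v => ?_)
        have e1 : (fun i => v (if i = 0 then 0 else if i = 1 then 1 else i + 4)) =
            upd (v 0) (v 1) (tl (tl (tl (tl v)))) := by
          funext i
          rcases i with _ | _ | i <;> rfl
        rw [e1]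
        rfl
      · exact ((DPt.dec (DioFn.var 2) (DioFn.var 3)).sub (DPt.dec (DioFn.var 0) (DioFn.var 1))).add
          (DPt.const _)
    · have hu : ∀ x y, ∀ i, dec (upd x y v (2 * e i + 2)) (upd x y v (2 * e i + 3)) = ix (j i) :=
        fun x y i => h i
      have e0 : ∀ a b : ℤ, ix a - ix b + P0 = ix (a - b) := by
        intro a b
        unfold ix
        nth_rw 3 [← one_zsmul P0]
        rw [sub_eq_add_neg, ← neg_zsmul, ← add_zsmul, ← add_zsmul]
        congr 1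
        ring
      constructor
      · rintro ⟨y, x, y', x', ⟨h1, h2⟩, h3⟩
        have h4 : dec x y = ix (f j) := (hS' R hR (upd x y v) j (hu x y)).1 h1
        have h5 : dec x' y' = ix (g j) := (hT' R hR (upd x' y' v) j (hu x' y')).1 h2
        rw [h3, h4, h5, e0]
      · intro h1
        obtain ⟨x, y, hxy⟩ := exists_dec (ix (f j))
        obtain ⟨x', y', hxy'⟩ := exists_dec (ix (g j))
        refine ⟨y, x, y', x', ⟨(hS' R hR (upd x y v) j (hu x y)).2 hxy,
          (hT' R hR (upd x' y' v) j (hu x' y')).2 hxy'⟩, ?_⟩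
        rw [h1, hxy, hxy', e0]
  | @mul f g _ _ ihf ihg =>
    obtain ⟨S, hS, hS'⟩ := ihf
    obtain ⟨T, hT, hT'⟩ := ihg
    refine ⟨fun R v => ∃ y x y' x', (S R (upd x y v) ∧ T R (upd x' y' v)) ∧
      MulI (dec (v 0) (v 1)) (dec x y) (dec x' y'), ?_, fun R hR v j h => ?_⟩
    · refine RD.ex (S := fun R y v => ∃ x y' x', (S R (upd x y v) ∧ T R (upd x' y' v)) ∧
        MulI (dec (v 0) (v 1)) (dec x y) (dec x' y')) ?_
      refine RD.ex (S := fun R x w => ∃ y' x', (S R (upd x (w 0) (tl w)) ∧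
        T R (upd x' y' (tl w))) ∧ MulI (dec (w 1) (w 2)) (dec x (w 0)) (dec x' y')) ?_
      refine RD.ex (S := fun R y' w => ∃ x', (S R (upd (w 0) (w 1) (tl (tl w))) ∧
        T R (upd x' y' (tl (tl w)))) ∧ MulI (dec (w 2) (w 3)) (dec (w 0) (w 1)) (dec x' y')) ?_
      refine RD.ex (S := fun R x' w => (S R (upd (w 1) (w 2) (tl (tl (tl w)))) ∧
        T R (upd x' (w 0) (tl (tl (tl w))))) ∧
          MulI (dec (w 3) (w 4)) (dec (w 1) (w 2)) (dec x' (w 0))) ?_
      refine RD.and (RD.and ?_ ?_) (rd_mulI hG hC (DPt.dec (DioFn.var 4) (DioFn.var 5))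
        (DPt.dec (DioFn.var 2) (DioFn.var 3)) (DPt.dec (DioFn.var 0) (DioFn.var 1)))
      · have := hS.ren (fun i => if i = 0 then 2 else if i = 1 then 3 else i + 4)
        refine this.congr (fun R _ v => ?_)
        have e1 : (fun i => v (if i = 0 then 2 else if i = 1 then 3 else i + 4)) =
            upd (v 2) (v 3) (tl (tl (tl (tl v)))) := by
          funext i
          rcases i with _ | _ | i <;> rfl
        rw [e1]
        rfl
      · have := hT.ren (fun i => if i = 0 then 0 else if i = 1 then 1 else i + 4)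
        refine this.congr (fun R _ v => ?_)
        have e1 : (fun i => v (if i = 0 then 0 else if i = 1 then 1 else i + 4)) =
            upd (v 0) (v 1) (tl (tl (tl (tl v)))) := by
          funext i
          rcases i with _ | _ | i <;> rfl
        rw [e1]
        rfl
    · have hu : ∀ x y, ∀ i, dec (upd x y v (2 * e i + 2)) (upd x y v (2 * e i + 3)) = ix (j i) :=
        fun x y i => h i
      constructor
      · rintro ⟨y, x, y', x', ⟨h1, h2⟩, a, b, h3, h6, h7⟩
        have h4 : dec x y = ix (f j) := (hS' R hR (upd x y v) j (hu x y)).1 h1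
        have h5 : dec x' y' = ix (g j) := (hT' R hR (upd x' y' v) j (hu x' y')).1 h2
        have h8 : f j = a := ix_inj (h4.symm.trans h6)
        have h9 : g j = b := ix_inj (h5.symm.trans h7)
        rw [h3, ← h8, ← h9]
      · intro h1
        obtain ⟨x, y, hxy⟩ := exists_dec (ix (f j))
        obtain ⟨x', y', hxy'⟩ := exists_dec (ix (g j))
        exact ⟨y, x, y', x', ⟨(hS' R hR (upd x y v) j (hu x y)).2 hxy,
          (hT' R hR (upd x' y' v) j (hu x' y')).2 hxy'⟩, f j, g j, h1, hxy, hxy'⟩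

/-- recursively enumerable relations between indices -/
theorem rd_sf (hG : RowG) (hC : RowC1) {n : ℕ} {P : (Fin n → ℕ) → Prop} (hP : SF P) :
    ∃ S, RD B J S ∧ ∀ R, Cls B J R → ∀ (v : ℕ → ℚ) (j : Fin n → ℕ),
      (∀ i : Fin n, dec (v (2 * i)) (v (2 * i + 1)) = ix (j i)) → (S R v ↔ P j) := by
  obtain ⟨m, f, hf, h⟩ := hP
  have hf' : IsPoly (fun u : Fin n ⊕ Fin m → ℕ => f (fun i => u (Sum.inl i), fun i => u (Sum.inr i))) :=
    hf
  obtain ⟨S, hS, hS'⟩ := rd_poly hG hC (Sum.elim (fun i : Fin n => (i : ℕ) + m)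
    (fun k : Fin m => (k : ℕ))) hf'
  refine ⟨fun R v => ∃ u, (fun R w => ((∀ k < m, NatIx (dec (w (2 * k + 2)) (w (2 * k + 3)))) ∧
    dec (w 0) (w 1) = ix 0) ∧ S R w) R (blk (2 * m + 2) u v), ?_, fun R hR v j hj => ?_⟩
  · have h1 : RD B J (fun R w => ((∀ k < m, NatIx (dec (w (2 * k + 2)) (w (2 * k + 3)))) ∧
        dec (w 0) (w 1) = ix 0) ∧ S R w) :=
      RD.and (RD.and (RD.all_lt m (S := fun k _ w => NatIx (dec (w (2 * k + 2)) (w (2 * k + 3))))
        fun k => rd_natIx hG hC (DPt.dec (DioFn.var _) (DioFn.var _)))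
        (RD.of_dio (dio_pt_eq (DPt.dec (DioFn.var 0) (DioFn.var 1)) (DPt.const _)))) hS
    exact RD.exN (2 * m + 2) h1
  have hv : ∀ u (i : Fin n), dec (blk (2 * m + 2) u v (2 * ((i : ℕ) + m) + 2))
      (blk (2 * m + 2) u v (2 * ((i : ℕ) + m) + 3)) = ix (j i) := by
    intro u i
    have e1 : 2 * ((i : ℕ) + m) + 2 = 2 * (i : ℕ) + (2 * m + 2) := by ring
    have e2 : 2 * ((i : ℕ) + m) + 3 = 2 * (i : ℕ) + 1 + (2 * m + 2) := by ring
    rw [e1, e2, blk_add, blk_add]
    exact hj i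
  constructor
  · rintro ⟨u, ⟨h1, h2⟩, h3⟩
    have hl : ∀ k : Fin m, ∃ l : ℕ, dec (blk (2 * m + 2) u v (2 * (k : ℕ) + 2))
        (blk (2 * m + 2) u v (2 * (k : ℕ) + 3)) = ix l := fun k => h1 k k.2
    choose l hl using hl
    have h4 := (hS' R hR (blk (2 * m + 2) u v) (Sum.elim j l) (by
      rintro (i | k)
      · exact hv u i
      · exact hl k)).1 h3
    rw [h2] at h4
    have h5 := ix_inj h4
    exact (h j).2 l h5.symm
  · intro hPj
    obtain ⟨l, hl, -⟩ := (h j).1 hPj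
    have hc : ∀ a : ℤ, ∃ xy : ℚ × ℚ, dec xy.1 xy.2 = ix a := by
      intro a
      obtain ⟨x, y, hxy⟩ := exists_dec (ix a)
      exact ⟨(x, y), hxy⟩
    choose c hc using hc
    let l' : ℕ → ℕ := fun k => if h : k < m then l ⟨k, h⟩ else 0
    let u : ℕ → ℚ := fun i => if i < 2 then (if i % 2 = 0 then (c 0).1 else (c 0).2)
      else (if i % 2 = 0 then (c (l' (i / 2 - 1))).1 else (c (l' (i / 2 - 1))).2)
    have hu : ∀ k < m, dec (blk (2 * m + 2) u v (2 * k + 2)) (blk (2 * m + 2) u v (2 * k + 3)) =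
        ix (l' k) := by
      intro k hk
      rw [blk_lt _ _ (by omega), blk_lt _ _ (by omega)]
      have e1 : ¬ (2 * k + 2 < 2) := by omega
      have e2 : ¬ (2 * k + 3 < 2) := by omega
      have e3 : (2 * k + 2) % 2 = 0 := by omega
      have e4 : ¬ (2 * k + 3) % 2 = 0 := by omega
      have e5 : (2 * k + 2) / 2 - 1 = k := by omega
      have e6 : (2 * k + 3) / 2 - 1 = k := by omega
      simp only [u, e1, e2, e3, e4, e5, e6, if_true, if_false]
      exact hc _
    have hu0 : dec (blk (2 * m + 2) u v 0) (blk (2 * m + 2) u v 1) = ix 0 := by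
      rw [blk_lt _ _ (by omega), blk_lt _ _ (by omega)]
      exact hc 0
    refine ⟨u, ⟨fun k hk => ⟨l' k, hu k hk⟩, hu0⟩, ?_⟩
    refine (hS' R hR (blk (2 * m + 2) u v) (Sum.elim j l) (by
      rintro (i | k)
      · exact hv u i
      · have := hu k k.2
        have e : l' k = l k := by
          simp only [l', dif_pos k.2]
        rw [e] at this
        exact this)).2 ?_
    rw [hu0]
    exact congrArg ix hl.symm

/-- **Row F.** -/
theorem rowF (hG : RowG) (hC : RowC1) (hC2 : RowC2) : RowF := by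
  intro B J k S hS
  obtain ⟨T, hT, hT'⟩ := rd_sf (B := B) (J := J) hG hC
    (sf_of_rePred (2 * k) _ (K2.rePred_pairs hS))
  -- the predicate
  have hW : RD B J (fun R w => (∀ i < 2 * k, NatIx (dec (w (2 * i)) (w (2 * i + 1)))) ∧
      (∀ i < k, dec (w (2 * i + 4 * k)) (w (2 * i + 1 + 4 * k)) =
        dec (w (4 * i)) (w (4 * i + 1)) - dec (w (4 * i + 2)) (w (4 * i + 3)) + P0) ∧ T R w) := by
    refine (RD.all_lt (2 * k) (S := fun i _ w => NatIx (dec (w (2 * i)) (w (2 * i + 1))))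
      fun i => rd_natIx hG hC (DPt.dec (DioFn.var _) (DioFn.var _))).and
      ((RD.all_lt k (S := fun i _ w => dec (w (2 * i + 4 * k)) (w (2 * i + 1 + 4 * k)) =
        dec (w (4 * i)) (w (4 * i + 1)) - dec (w (4 * i + 2)) (w (4 * i + 3)) + P0)
      fun i => RD.of_dio ?_).and hT)
    exact dio_pt_eq (DPt.dec (DioFn.var _) (DioFn.var _))
      (((DPt.dec (DioFn.var _) (DioFn.var _)).sub (DPt.dec (DioFn.var _) (DioFn.var _))).add
        (DPt.const _))
  have hX := RD.exN (4 * k) hW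
  have hY : RD B J (fun R v => (fun (R : Set ℚ) (x : Fin (2 * k) → ℚ) => ∃ a ∈ S, ∀ i : Fin k,
      dec (x ⟨2 * i, by omega⟩) (x ⟨2 * i + 1, by omega⟩) = ix (a i)) R (fun i => v i)) := by
    refine hX.congr (fun R hR v => ?_)
    show (∃ a ∈ S, ∀ i : Fin k, dec (v (2 * i)) (v (2 * i + 1)) = ix (a i)) ↔ _
    constructor
    · rintro ⟨a, haS, ha⟩
      have hc : ∀ a : ℤ, ∃ xy : ℚ × ℚ, dec xy.1 xy.2 = ix a := by
        intro a
        obtain ⟨x, y, hxy⟩ := exists_dec (ix a)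
        exact ⟨(x, y), hxy⟩
      choose c hc using hc
      let b : ℕ → ℕ := fun i => if h : i / 2 < k then
        (if i % 2 = 0 then (a ⟨i / 2, h⟩).toNat else (-a ⟨i / 2, h⟩).toNat) else 0
      let u : ℕ → ℚ := fun i => if i % 2 = 0 then (c (b (i / 2))).1 else (c (b (i / 2))).2
      have hu : ∀ i < 2 * k, dec (blk (4 * k) u v (2 * i)) (blk (4 * k) u v (2 * i + 1)) =
          ix (b i) := by
        intro i hi
        rw [blk_lt _ _ (by omega), blk_lt _ _ (by omega)]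
        have e3 : (2 * i) % 2 = 0 := by omega
        have e4 : ¬ (2 * i + 1) % 2 = 0 := by omega
        have e5 : (2 * i) / 2 = i := by omega
        have e6 : (2 * i + 1) / 2 = i := by omega
        simp only [u, e3, e4, e5, e6, if_true, if_false]
        exact hc _
      have hb : ∀ i : Fin k, ((b (2 * i) : ℕ) : ℤ) - ((b (2 * i + 1) : ℕ) : ℤ) = a i := by
        intro i
        have h1 : (2 * (i : ℕ)) / 2 = i := by omega
        have h2 : (2 * (i : ℕ) + 1) / 2 = i := by omega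
        have h3 : (2 * (i : ℕ)) % 2 = 0 := by omega
        have h4 : ¬ (2 * (i : ℕ) + 1) % 2 = 0 := by omega
        have h5 : b (2 * i) = (a i).toNat := by
          simp only [b, h1, h3, i.2, dif_pos, if_true, Fin.eta]
        have h6 : b (2 * i + 1) = (-a i).toNat := by
          simp only [b, h2, h4, i.2, dif_pos, if_false, Fin.eta]
        rw [h5, h6]
        omega
      refine ⟨u, fun i hi => ⟨b i, hu i hi⟩, ?_, ?_⟩
      · intro i hi
        rw [blk_add, blk_add]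
        have h1 := hu (2 * i) (by omega)
        have h2 := hu (2 * i + 1) (by omega)
        have e1 : 2 * (2 * i) = 4 * i := by ring
        have e2 : 2 * (2 * i + 1) = 4 * i + 2 := by ring
        rw [e1] at h1
        rw [e2] at h2
        rw [h1, h2, ix_sub_ix, ha ⟨i, hi⟩, ← hb ⟨i, hi⟩]
      · refine (hT' R hR _ (fun i => b i) (fun i => hu i i.2)).2 ?_
        show (fun i : Fin k => ((b (2 * i) : ℕ) : ℤ) - ((b (2 * i + 1) : ℕ) : ℤ)) ∈ S
        have : (fun i : Fin k => ((b (2 * i) : ℕ) : ℤ) - ((b (2 * i + 1) : ℕ) : ℤ)) = a :=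
          funext hb
        rw [this]
        exact haS
    · rintro ⟨u, h1, h2, h3⟩
      choose b hb using h1
      have h4 := (hT' R hR _ (fun i : Fin (2 * k) => b i i.2) (fun i => hb i i.2)).1 h3
      refine ⟨_, h4, fun i => ?_⟩
      have h5 := h2 i i.2
      rw [blk_add, blk_add] at h5
      have h6 := hb (2 * i) (by omega)
      have h7 := hb (2 * i + 1) (by omega)
      have e1 : 2 * (2 * (i : ℕ)) = 4 * i := by ring
      have e2 : 2 * (2 * (i : ℕ) + 1) = 4 * i + 2 := by ring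
      rw [e1] at h6
      rw [e2] at h7
      rw [h5, h6, h7, ix_sub_ix]
  obtain ⟨m, r, F, hF⟩ := @hC2 (Cls B J) (fun R hR => zero_mem hR) (2 * k)
    (fun (_ : Set ℚ) (x : Fin (2 * k) → ℚ) => ∃ a ∈ S, ∀ i : Fin k,
      dec (x ⟨2 * i, by omega⟩) (x ⟨2 * i + 1, by omega⟩) = ix (a i)) hY
  let g : Fin (2 * k) → Fin k × Fin 2 := fun i =>
    (⟨(i : ℕ) / 2, by omega⟩, ⟨(i : ℕ) % 2, Nat.mod_lt _ (by norm_num)⟩)
  refine ⟨m, r, rename (Sum.map g id) F, fun R R' hR hR' z => ?_⟩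
  have key : ∀ (u : Fin m → ℚ) (y : Fin r → ℚ),
      Sum.elim z (Sum.elim u y) ∘ Sum.map g id = Sum.elim (z ∘ g) (Sum.elim u y) := by
    intro u y; funext i; rcases i with i | i <;> rfl
  simp only [aeval_rename, key]
  rw [← hF R R' hR hR' (z ∘ g)]
  have hg0 : ∀ i : Fin k, g ⟨2 * i, by omega⟩ = (i, 0) := by
    intro i
    refine Prod.ext (Fin.ext ?_) (Fin.ext ?_)
    · show (2 * (i : ℕ)) / 2 = i
      omega
    · show (2 * (i : ℕ)) % 2 = 0
      omega
  have hg1 : ∀ i : Fin k, g ⟨2 * i + 1, by omega⟩ = (i, 1) := by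
    intro i
    refine Prod.ext (Fin.ext ?_) (Fin.ext ?_)
    · show (2 * (i : ℕ) + 1) / 2 = i
      omega
    · show (2 * (i : ℕ) + 1) % 2 = 1
      omega
  have hix : ∀ a : ℤ, ix a ≠ 0 := fun a => by
    unfold ix
    exact zsmul_P0_ne_zero (by omega)
  refine exists_congr fun a => and_congr_right fun _ => forall_congr' fun i => ?_
  show _ ↔ dec (z (g ⟨2 * i, by omega⟩)) (z (g ⟨2 * i + 1, by omega⟩)) = ix (a i)
  rw [hg0, hg1]
  constructor
  · rintro ⟨e, h⟩
    rw [dec_of e, h]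
    rfl
  · intro h
    by_cases e : z (i, 1) ^ 2 = z (i, 0) ^ 3 - 2 * z (i, 0)
    · refine ⟨e, ?_⟩
      rw [dec_of e] at h
      exact h
    · rw [dec_of_not e] at h
      exact absurd h.symm (hix _)

end Vale.Agent.P027.E5.H712
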