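import Vale.Agent.P027.R5.E5.Arith

set_option linter.all false

/-! Squares and products of indices are positive existential over `R`. -/

namespace Vale.Agent.P027.E5

open Vale.Agent.P345 Vale.Agent.P027 Vale.Agent.P027.HT Vale.Agent.P027.D1 Vale.Agent.P027.D5

theorem sqOP_iff {B C : ℕ} {R : Set ℚ} (hR : Cls B C R) {x z : ℤ} (hx : (2 * C : ℤ) ∣ x + 1)
    (hz : (2 * C : ℤ) ∣ z - 1) :
    SqOP B C R ((2 * x) • P0) ((2 * z) • P0) ↔ z = x ^ 2 := by
  have hxo : Odd x := by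
    obtain ⟨t, ht⟩ := hx
    exact ⟨C * t - 1, by linarith⟩
  have hcx : ∀ r : ℕ, r.Prime → (r : ℤ) ∣ x → ¬ r ∣ 2 * C := by
    intro r hr h1 h2
    have h3 : (r : ℤ) ∣ x + 1 := by
      refine dvd_trans ?_ hx
      have := Int.natCast_dvd_natCast.2 h2
      push_cast at this
      exact this
    have h4 : (r : ℤ) ∣ 1 := by
      have := dvd_sub h3 h1
      rwa [add_sub_cancel_left] at this
    have h5 : r ∣ 1 := by exact_mod_cast h4
    exact hr.one_lt.ne' (Nat.dvd_one.1 h5)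
  have hcz : ∀ r : ℕ, r.Prime → (r : ℤ) ∣ z → ¬ r ∣ 2 * C := by
    intro r hr h1 h2
    have h3 : (r : ℤ) ∣ z - 1 := by
      refine dvd_trans ?_ hz
      have := Int.natCast_dvd_natCast.2 h2
      push_cast at this
      exact this
    have h4 : (r : ℤ) ∣ 1 := by
      have := dvd_sub h1 h3
      rwa [sub_sub_cancel] at this
    have h5 : r ∣ 1 := by exact_mod_cast h4
    exact hr.one_lt.ne' (Nat.dvd_one.1 h5)
  constructor
  · rintro ⟨_, _, _, _, ⟨hp1, hp2, hp4, hp8⟩, ⟨_, ⟨K, rfl⟩, hK⟩, ⟨hv1, hv2, hv4⟩,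
      ⟨hK4, hK8, hK4'⟩, hr1, hr2, hr3⟩
    obtain ⟨N, rfl⟩ := hp1.1.1
    obtain ⟨N2, rfl⟩ := hp2.1.1
    obtain ⟨N4, rfl⟩ := hp4.1.1
    obtain ⟨N8, rfl⟩ := hp8.1.1
    have hP1 := powP_sound hR hp1
    have hP2 := powP_sound hR hp2
    have hP4 := powP_sound hR hp4
    have hP8 := powP_sound hR hp8
    have ne : ∀ {N : ℤ}, D1.IsP N → N ≠ 0 := by
      intro N hN
      rcases hN.eq with h | h
      · rw [h]; positivity
      · rw [h]; simp
    rw [v2P_iff (ne hP1) (ne hP2)] at hv1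
    rw [v2P_iff (ne hP2) (ne hP4)] at hv2
    rw [v2P_iff (ne hP4) (ne hP8)] at hv4
    rw [nsmul_ev] at hK
    rw [oneP_iff] at hK4 hK8 hK4'
    rw [two_P0, ev_sub] at hr1 hr2
    rw [ev_sub, ev_sub] at hr3
    have e0 := ev_inj hK
    have hNe : Even N := ⟨K, by rw [e0]; push_cast; ring⟩
    have hN1 : 1 ≤ padicValInt 2 N := by
      by_contra hcon
      have h4 : padicValInt 2 N = 0 := by omega
      rcases hP1.eq with h5 | h5
      · rw [h4, pow_zero] at h5; rw [h5] at hNe; exact absurd hNe (by decide)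
      · rw [h4, pow_zero] at h5; rw [h5] at hNe; exact absurd hNe (by decide)
    have hN4e : Even N4 := by
      have h1 : padicValInt 2 N4 ≠ 0 := by omega
      rcases hP4.eq with h | h
      · rw [h]; exact (by decide : Even (2 : ℤ)).pow_of_ne_zero h1
      · rw [h]; exact ((by decide : Even (2 : ℤ)).pow_of_ne_zero h1).neg
    have hc4 : ∀ r : ℕ, r.Prime → (r : ℤ) ∣ N4 - x → ¬ r ∣ 2 * C := by
      intro r hr h1 h2
      by_cases hr2 : r = 2
      · subst hr2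
        have h3 : Odd (N4 - x) := hN4e.sub_odd hxo
        rw [← Int.not_even_iff_odd, even_iff_two_dvd] at h3
        exact h3 (by exact_mod_cast h1)
      · have h3 : r ∣ C := by
          rcases (hr.dvd_mul).1 h2 with h | h
          · exact absurd ((Nat.prime_dvd_prime_iff_eq hr Nat.prime_two).1 h) hr2
          · exact h
        have h4 : r ≤ B + C := by
          have := Nat.le_of_dvd hR.pos h3
          omega
        have h5 : (r : ℤ) ∣ N4 - 1 := (Int.natCast_dvd_natCast.2 (dvd_MM hr hr2 h4)).trans hK4'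
        have h6 : (r : ℤ) ∣ x + 1 := by
          refine dvd_trans ?_ hx
          have := Int.natCast_dvd_natCast.2 h2
          push_cast at this
          exact this
        have h7 : (r : ℤ) ∣ 2 := by
          have := dvd_sub (dvd_add h1 h6) h5
          have e : N4 - x + (x + 1) - (N4 - 1) = 2 := by ring
          rwa [e] at this
        have h8 : r ∣ 2 := by exact_mod_cast h7
        exact hr2 ((Nat.prime_dvd_prime_iff_eq hr Nat.prime_two).1 h8)
    exact sq_sound hP1 hP4 hP8 hNe hv1 hv2 hv4 (by exact_mod_cast hK4) (by exact_mod_cast hK8)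
      (relP_sound hR hcx hr1) (relP_sound hR hcz hr2) (relP_sound hR hc4 hr3)
  · rintro rfl
    obtain ⟨k, hk, d1, d2, t4, t8, tM, d3⟩ := sq_complete hxo (odd_MM B C)
    have hx0 : x ≠ 0 := by rintro rfl; exact absurd hxo (by decide)
    have hp : ∀ n : ℕ, D1.IsP (2 ^ n) := fun n => ⟨n, Or.inl rfl⟩
    refine ⟨(2 * 2 ^ k : ℤ) • P0, (2 * 2 ^ (2 * k) : ℤ) • P0, (2 * 2 ^ (4 * k) : ℤ) • P0,
      (2 * 2 ^ (8 * k) : ℤ) • P0, ⟨powP_complete hR (hp _), powP_complete hR (hp _),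
      powP_complete hR (hp _), powP_complete hR (hp _)⟩,
      ⟨_, ⟨2 ^ (k - 1), rfl⟩, ?_⟩, ⟨?_, ?_, ?_⟩, ⟨?_, ?_, ?_⟩, ?_, ?_, ?_⟩
    · rw [nsmul_ev]
      congr 1
      obtain ⟨k', rfl⟩ : ∃ k', k = k' + 1 := ⟨k - 1, by omega⟩
      rw [Nat.add_sub_cancel]
      push_cast
      ring
    · rw [v2P_iff (by positivity) (by positivity), val_two_pow, val_two_pow]
    · rw [v2P_iff (by positivity) (by positivity), val_two_pow, val_two_pow]; ring
    · rw [v2P_iff (by positivity) (by positivity), val_two_pow, val_two_pow]; ring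
    · rw [oneP_iff]; exact_mod_cast t4
    · rw [oneP_iff]; exact_mod_cast t8
    · rw [oneP_iff]; exact tM
    · rw [two_P0, ev_sub]
      exact relP_complete hR hxo d1
    · rw [two_P0, ev_sub]
      exact relP_complete hR hxo.pow d2
    · rw [ev_sub, ev_sub]
      refine relP_complete hR ?_ d3
      have h2 : Even ((2 : ℤ) ^ (4 * k)) := (by decide : Even (2 : ℤ)).pow_of_ne_zero (by omega)
      exact h2.sub_odd hxo

theorem sqP_iff {B C : ℕ} {R : Set ℚ} (hR : Cls B C R) {V W : EC.Point} :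
    SqP B C R V W ↔ ∃ x : ℤ, V = (2 * x) • P0 ∧ W = (2 * x ^ 2) • P0 := by
  have hC : (C : ℤ) ≠ 0 := by exact_mod_cast hR.pos.ne'
  have key : ∀ x z : ℤ, SqOP B C R ((2 * C) • ((2 * x) • P0) - 2 • P0)
      ((4 * C ^ 2) • ((2 * z) • P0) - (4 * C) • ((2 * x) • P0) + 2 • P0) ↔ z = x ^ 2 := by
    intro x z
    have e1 : (2 * C) • ((2 * x) • P0) - 2 • P0 = (2 * (2 * C * x - 1)) • P0 := by
      rw [nsmul_ev, two_P0, ev_sub]
      push_cast
      rfl
    have e2 : (4 * C ^ 2) • ((2 * z) • P0) - (4 * C) • ((2 * x) • P0) + 2 • P0 =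
        (2 * (4 * C ^ 2 * z - 4 * C * x + 1)) • P0 := by
      rw [nsmul_ev, nsmul_ev, two_P0, ev_sub, ev_add]
      push_cast
      rfl
    rw [e1, e2, sqOP_iff hR ⟨x, by ring⟩ ⟨2 * C * z - 2 * x, by ring⟩]
    constructor
    · intro h
      have h1 : (4 * (C : ℤ) ^ 2) * z = (4 * (C : ℤ) ^ 2) * x ^ 2 := by linear_combination h
      exact mul_left_cancel₀ (mul_ne_zero (by norm_num) (pow_ne_zero 2 hC)) h1
    · rintro rfl
      ring
  constructor
  · rintro ⟨⟨x, rfl⟩, ⟨z, rfl⟩, h⟩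
    rw [key] at h
    exact ⟨x, rfl, by rw [h]⟩
  · rintro ⟨x, rfl, rfl⟩
    exact ⟨⟨x, rfl⟩, ⟨x ^ 2, rfl⟩, (key x (x ^ 2)).2 rfl⟩

/-- row G -/
theorem rowG : RowG := by
  intro B C R hR V W Z
  constructor
  · rintro ⟨⟨z, rfl⟩, A, D, E, h1, h2, h3, h4⟩
    rw [sqP_iff hR] at h1 h2 h3
    obtain ⟨m, rfl, rfl⟩ := h1
    obtain ⟨n, rfl, rfl⟩ := h2
    obtain ⟨s, hs, rfl⟩ := h3
    rw [ev_add] at hs
    have e1 := ev_inj hs
    rw [nsmul_ev, ev_add, ev_add] at h4
    have e2 := ev_inj h4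
    refine ⟨m, n, rfl, rfl, ?_⟩
    have e3 : z = m * n := by
      rw [← e1] at e2
      push_cast at e2
      have : 2 * z = 2 * (m * n) := by linear_combination -e2
      omega
    rw [e3]
  · rintro ⟨m, n, rfl, rfl, rfl⟩
    refine ⟨⟨_, rfl⟩, (2 * m ^ 2) • P0, (2 * n ^ 2) • P0, (2 * (m + n) ^ 2) • P0,
      (sqP_iff hR).2 ⟨m, rfl, rfl⟩, (sqP_iff hR).2 ⟨n, rfl, rfl⟩,
      (sqP_iff hR).2 ⟨m + n, ev_add _ _, rfl⟩, ?_⟩
    rw [nsmul_ev, ev_add, ev_add]
    congr 1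
    push_cast
    ring

end Vale.Agent.P027.E5
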