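import Vale.Agent.P027.R5.E5.U3b

set_option linter.all false

/-! Unconditional statements over the rationals. -/

namespace Vale.Agent.P027.E5

open Vale.Agent.P345 Vale.Agent.P027 Vale.Agent.P027.HT Vale.Agent.P027.D1 Vale.Agent.P027.D5

theorem q8a {n : ℤ} (hn : n ≠ 0) :
    (∃ a b c d : ℚ, xc ((2 * n) • P0) = ((a ^ 2 - 2 * b ^ 2) * (c ^ 2 + 2 * d ^ 2)) ^ 2) ↔
      ∀ q : ℕ, q.Prime → q % 8 = 5 → padicValRat q (xc ((2 * n) • P0)) % 4 = 0 := by
  have h0 : xc ((2 * n) • P0) ≠ 0 := xc_ne _ (mul_ne_zero two_ne_zero hn)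
  constructor
  · rintro ⟨a, b, c, d, h⟩ q hq h5
    have : Fact q.Prime := ⟨hq⟩
    have hs0 : (a ^ 2 - 2 * b ^ 2) * (c ^ 2 + 2 * d ^ 2) ≠ 0 := by
      intro h1
      rw [h1] at h
      exact h0 (by rw [h]; norm_num)
    have h1 := even_of_lam (q := q) h5 hs0 ⟨a, b, c, d, rfl⟩
    rw [h, padicValRat.pow]
    rw [Int.even_iff] at h1
    push_cast
    omega
  · intro h
    obtain ⟨s, hs⟩ := sq_even hn
    have hs0 : s ≠ 0 := by
      rintro rfl
      exact h0 (by rw [← hs]; norm_num)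
    obtain ⟨a, b, c, d, h1⟩ := lam_of_even hs0 (fun q hq h5 => by
      have : Fact q.Prime := ⟨hq⟩
      have h2 := h q hq h5
      rw [← hs, padicValRat.pow] at h2
      rw [Int.even_iff]
      push_cast at h2
      omega)
    exact ⟨a, b, c, d, by rw [← hs, h1]⟩

theorem q8b (k : ℕ) {q : ℕ} (hq : q.Prime) (h5 : q % 8 = 5) :
    padicValRat q (xc ((2 * 2 ^ k : ℤ) • P0)) % 4 = 0 := by
  have : Fact q.Prime := ⟨hq⟩
  have e : (2 * 2 ^ k : ℤ) = 2 ^ (k + 1) * 1 := by ring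
  have hP : HasX P0 (-1) := ⟨1, _, rfl⟩
  have h1 : xc ((1 : ℤ) • P0) = -1 := by rw [one_zsmul]; exact xc_of_hasX hP
  rw [e, val_two_pow5 (q := q) h5 (n := 1) (by decide) (k + 1), h1, padicValRat.neg,
    padicValRat.one]
  rfl

theorem q8c {n : ℤ} (hn : n ≠ 0) {r : ℕ} (hr : r.Prime) (hr3 : r % 8 = 3) (hrn : (r : ℤ) ∣ n) :
    ∃ q : ℕ, q.Prime ∧ q % 8 = 5 ∧ padicValRat q (xc ((2 * n) • P0)) % 4 = 2 := by
  obtain ⟨j, m, hm, rfl⟩ := exists_odd_part hn
  have hm0 : m ≠ 0 := by rintro rfl; exact absurd hm (by decide)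
  have hm1 : m.natAbs ≠ 0 := Int.natAbs_ne_zero.2 hm0
  have hmo : Odd m.natAbs := Int.natAbs_odd.2 hm
  have hrm : r ∣ m.natAbs := by
    have h1 : r ∣ (2 ^ j * m).natAbs := Int.natCast_dvd.1 hrn
    rw [Int.natAbs_mul, Int.natAbs_pow] at h1
    have h2 : Nat.Coprime r ((2 : ℤ).natAbs ^ j) := by
      refine Nat.Coprime.pow_right j ?_
      rw [Nat.Prime.coprime_iff_not_dvd hr]
      intro h3
      have := Nat.le_of_dvd (by norm_num) h3
      have h4 := hr.two_le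
      have h5 : (2 : ℤ).natAbs = 2 := rfl
      omega
    exact h2.dvd_of_dvd_mul_left h1
  obtain ⟨e, n', hn', hne⟩ := Nat.exists_eq_pow_mul_and_not_dvd hm1 r hr.one_lt.ne'
  have he : 1 ≤ e := by
    by_contra hcon
    have h1 : e = 0 := by omega
    rw [h1, pow_zero, one_mul] at hne
    exact hn' (by rw [← hne]; exact hrm)
  obtain ⟨q, k, hq, -, -, -, -, h5, hv⟩ := three_mod_eight (C := 1) (n := m.natAbs) (r := r)
    (e := e) (by decide) (Nat.pos_of_ne_zero hm1)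
    (by rw [mul_one]; exact Nat.coprime_two_right.2 hmo) hr hr3 he
    (by rw [hne]; exact dvd_mul_right _ _)
    (by
      intro h
      rw [hne] at h
      have := le_of_pow_dvd hr hn' h
      omega)
  have : Fact q.Prime := ⟨hq⟩
  refine ⟨q, hq, h5, ?_⟩
  have e1 : 2 * (2 ^ j * m) = 2 ^ (j + 1) * m := by ring
  rw [e1, val_two_pow5 (q := q) h5 hm]
  rw [Nat.cast_one, xc_natAbs, one_mul] at hv
  exact hv

theorem d5_core {n M : ℤ} {c d : ℕ} (hcd : OddForm n (xc (n • P0)) c d) (hM : M ≠ 0)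
    (hd : n ∣ M) : ∃ u v w : ℚ, (((c : ℚ) / d) / xc ((2 * M) • P0)) ^ 2 - 2 =
      2 * u ^ 2 + ((c : ℚ) / d) * (v ^ 2 - 2 * w ^ 2) := by
  have hn := hcd.odd
  have hn0 : n ≠ 0 := by rintro rfl; exact absurd hn (by decide)
  have hc0 : (c : ℚ) ≠ 0 := by exact_mod_cast hcd.c_pos.ne'
  have hd0 : (d : ℚ) ≠ 0 := by exact_mod_cast hcd.d_pos.ne'
  have hz0 : xc ((2 * M) • P0) ≠ 0 := xc_ne _ (mul_ne_zero two_ne_zero hM)
  have hr0 : (c : ℚ) / d ≠ 0 := div_ne_zero hc0 hd0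
  have a3 : 2 ≤ padicValRat 2 ((c : ℚ) / d / xc ((2 * M) • P0)) := by
    have : Fact (Nat.Prime 2) := ⟨Nat.prime_two⟩
    rw [padicValRat.div hr0 hz0, val_two hM, padicValRat.div hc0 hd0, padicValRat.of_nat,
      padicValRat.of_nat,
      padicValNat.eq_zero_of_not_dvd (p := 2) (n := c) (by have := hcd.c_odd; omega),
      padicValNat.eq_zero_of_not_dvd (p := 2) (n := d) (by have := hcd.d_odd; omega)]
    push_cast
    omega
  have a4 : ∀ q : ℕ, q.Prime → q % 8 = 5 → q ∣ d →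
      1 ≤ padicValRat q ((c : ℚ) / d / xc ((2 * M) • P0)) := by
    intro q hq h5 hqd
    have : Fact q.Prime := ⟨hq⟩
    have h4 : q ∣ (xc (n • P0)).den := by
      rw [form_den hcd]
      exact hqd.trans (dvd_pow_self d two_ne_zero)
    have h6 : (xc (n • P0)).den ∣ (xc ((2 * M) • P0)).den := by
      obtain ⟨t, rfl⟩ := hd
      have e : (2 * (n * t)) • P0 = (2 * t) • (n • P0) := by
        rw [← mul_zsmul]; congr 1; ring
      rw [e]
      refine den_dvd_smul (zsmul_P0_ne_zero hn0) ?_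
      rw [← e]
      exact zsmul_P0_ne_zero (mul_ne_zero two_ne_zero hM)
    have h3 := form_val hcd hq h5
    have h7 := val_neg_of_dvd h4
    have h8 := val_neg_of_dvd (h4.trans h6)
    have h9 : padicValNat q (xc (n • P0)).den ≤ padicValNat q (xc ((2 * M) • P0)).den := by
      rw [← padicValNat_dvd_iff_le (xc ((2 * M) • P0)).den_ne_zero]
      exact pow_padicValNat_dvd.trans h6
    have h1 : padicValRat q ((c : ℚ) / d) = -(d.factorization q : ℤ) := by
      rw [padicValRat.div hc0 hd0, padicValRat.of_nat, padicValRat.of_nat,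
        padicValNat.eq_zero_of_not_dvd (form_c hcd q hq (Or.inr h5)), Nat.factorization_def _ hq]
      simp
    have h2 : 1 ≤ d.factorization q := (hq.dvd_iff_one_le_factorization hcd.d_pos.ne').1 hqd
    rw [padicValRat.div hr0 hz0, h1, h8]
    rw [h3] at h7
    omega
  exact exists_rep hcd.c_odd hcd.d_odd (form_c hcd) (form_d hcd) (div_ne_zero hr0 hz0) a3 a4

/-- the relation over the rationals, for odd `n` -/
theorem q8d {n m : ℤ} (hn : Odd n) (hm : m ≠ 0) : ∃ r : ℚ, 0 < r ∧ xc (n • P0) = -r ^ 2 ∧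
    (n ∣ m → ∃ u v w : ℚ, (r / xc ((2 * m) • P0)) ^ 2 - 2 = 2 * u ^ 2 + r * (v ^ 2 - 2 * w ^ 2)) ∧
    ((∃ u v w : ℚ, (r / xc ((2 * m) • P0)) ^ 2 - 2 = 2 * u ^ 2 + r * (v ^ 2 - 2 * w ^ 2)) →
      (∀ q : ℕ, q.Prime → q % 8 = 5 → padicValRat q (xc (n • P0)) % 4 = 2 →
        q ∣ (xc ((2 * m) • P0)).den) ∧
      ∀ p e : ℕ, p.Prime → p % 8 = 3 → (p : ℤ) ^ e ∣ n → (p : ℤ) ^ e ∣ m) := by
  obtain ⟨c, d, hcd⟩ := oddForm_of_hasX hn (hasX_odd hn)
  have hc0 : (0 : ℚ) < c := by exact_mod_cast hcd.c_pos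
  have hd0 : (0 : ℚ) < d := by exact_mod_cast hcd.d_pos
  have hn0 : n ≠ 0 := by rintro rfl; exact absurd hn (by decide)
  have hr : (0 : ℚ) < (c : ℚ) / d := div_pos hc0 hd0
  have hx : xc (n • P0) = -((c : ℚ) / d) ^ 2 := by rw [hcd.eq, div_pow]
  refine ⟨(c : ℚ) / d, hr, hx, fun h => d5_core hcd hm h, ?_⟩
  rintro ⟨u, v, w, he⟩
  have key : ∀ q : ℕ, q.Prime → q % 8 = 5 → padicValRat q (xc (n • P0)) % 4 = 2 →
      q ∣ (xc ((2 * m) • P0)).den := by
    intro q hq h5 hv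
    have : Fact q.Prime := ⟨hq⟩
    rw [hx, padicValRat.neg, padicValRat.pow] at hv
    have hodd : Odd (padicValRat q ((c : ℚ) / d)) := by
      rw [Int.odd_iff]
      push_cast at hv
      omega
    have h1 := norm_ge (q := q) h5 hn0
    have hr1 : 1 ≤ padicNorm q ((c : ℚ) / d) := by
      rw [hx, padicNorm.neg, pn_sq] at h1
      by_contra hcon
      push Not at hcon
      have := padicNorm.nonneg (p := q) ((c : ℚ) / d)
      nlinarith only [h1, this, hcon]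
    by_contra hcon
    rw [dvd_den_iff, not_lt] at hcon
    have hz := norm_ge (q := q) h5 (n := 2 * m) (mul_ne_zero two_ne_zero hm)
    exact d5_sound h5 hr.ne' hodd (le_antisymm hcon hz) hr1 he
  refine ⟨key, fun p e' hp hp3 hpn => ?_⟩
  rcases Nat.eq_zero_or_pos e' with rfl | he'
  · simp
  have hn1 : n.natAbs ≠ 0 := Int.natAbs_ne_zero.2 hn0
  obtain ⟨e, n', hn', hne⟩ := Nat.exists_eq_pow_mul_and_not_dvd hn1 p hp.one_lt.ne'
  have hpn' : p ^ e' ∣ n.natAbs := by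
    have h1 : ((p ^ e' : ℕ) : ℤ) ∣ n := by push_cast; exact hpn
    exact Int.natCast_dvd.1 h1
  have hee : e' ≤ e := le_of_pow_dvd hp hn' (by rw [← hne]; exact hpn')
  obtain ⟨q, k, hq, hqk, hpk, -, -, h5, hv⟩ := three_mod_eight (C := 1) (n := n.natAbs) (r := p)
    (e := e) (by decide) (Nat.pos_of_ne_zero hn1)
    (by rw [mul_one]; exact Nat.coprime_two_right.2 (Int.natAbs_odd.2 hn)) hp hp3
    (le_trans he' hee) (by rw [hne]; exact dvd_mul_right _ _)
    (by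
      intro h
      rw [hne] at h
      have := le_of_pow_dvd hp hn' h
      omega)
  rw [Nat.cast_one, xc_natAbs, one_mul] at hv
  have h1 : Dv q (2 * m) := Or.inr (key q hq h5 hv)
  rw [hqk.2] at h1
  have h2 : p ^ e' ∣ 2 * m.natAbs := by
    have h3 : ((p ^ e' : ℕ) : ℤ) ∣ 2 * m :=
      (Int.natCast_dvd_natCast.2 ((pow_dvd_pow p hee).trans hpk)).trans h1
    have h4 := Int.natCast_dvd.1 h3
    rwa [Int.natAbs_mul] at h4
  have h3 : Nat.Coprime (p ^ e') 2 := by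
    refine Nat.Coprime.pow_left e' ?_
    rw [Nat.coprime_primes hp Nat.prime_two]
    omega
  have h4 := h3.dvd_of_dvd_mul_left h2
  have h5' : ((p ^ e' : ℕ) : ℤ) ∣ m := Int.natCast_dvd.2 h4
  push_cast at h5'
  exact h5'

end Vale.Agent.P027.E5
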