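import Vale.Agent.P027.R5.E5.Arith
import Vale.Agent.P027.R4.H712.Val

set_option linter.all false

/-! Prime powers of primes that are three modulo eight: unconditional primes. -/

namespace Vale.Agent.P027.E5

open Vale.Agent.P345 Vale.Agent.P027 Vale.Agent.P027.HT Vale.Agent.P027.D1 Vale.Agent.P027.D5

theorem mod8_one (n : ℕ) : n ≠ 0 → (∀ q : ℕ, q.Prime → q ∣ n → q % 4 = 1) →
    (∀ q : ℕ, q.Prime → q % 8 = 5 → Even (n.factorization q)) → n % 8 = 1 := by
  induction n using Nat.recOnPosPrimePosCoprime with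
  | prime_pow p k hp hk =>
    intro _ h1 h2
    have h4 := h1 p hp (dvd_pow_self p hk.ne')
    by_cases h5 : p % 8 = 5
    · have h6 := h2 p hp h5
      rw [hp.factorization_pow, Finsupp.single_eq_same] at h6
      obtain ⟨j, hj⟩ := h6
      rw [hj, ← two_mul, pow_mul, Nat.pow_mod, Nat.pow_mod p 2, h5]
      norm_num
    · have h7 : p % 8 = 1 := by omega
      rw [Nat.pow_mod, h7]; norm_num
  | zero => intro h; exact absurd rfl h
  | one => intro _ _ _; rfl
  | coprime a b ha hb hab iha ihb =>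
    intro _ h1 h2
    have ha0 : a ≠ 0 := by omega
    have hb0 : b ≠ 0 := by omega
    have h4 : ∀ q : ℕ, a.factorization q = 0 ∨ b.factorization q = 0 := by
      intro q
      by_contra hcon
      push Not at hcon
      have h5 : q ∣ a := Nat.dvd_of_factorization_pos hcon.1
      have h6 : q ∣ b := Nat.dvd_of_factorization_pos hcon.2
      have h7 := Nat.dvd_gcd h5 h6
      rw [hab.gcd_eq_one] at h7
      have h8 : q = 1 := Nat.dvd_one.1 h7
      subst h8
      exact hcon.1 (Nat.factorization_one_right a)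
    have h5 := iha ha0 (fun q hq hqa => h1 q hq (hqa.mul_right b)) (fun q hq h8 => by
      have h5 := h2 q hq h8
      rw [Nat.factorization_mul ha0 hb0, Finsupp.add_apply] at h5
      rcases h4 q with h6 | h6
      · rw [h6]; exact Even.zero
      · rw [h6, add_zero] at h5; exact h5)
    have h6 := ihb hb0 (fun q hq hqb => h1 q hq (hqb.mul_left a)) (fun q hq h8 => by
      have h5 := h2 q hq h8
      rw [Nat.factorization_mul ha0 hb0, Finsupp.add_apply] at h5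
      rcases h4 q with h6 | h6
      · rw [h6, zero_add] at h5; exact h5
      · rw [h6]; exact Even.zero)
    rw [Nat.mul_mod, h5, h6]

theorem mod8_pm (n : ℕ) : n ≠ 0 → (∀ q : ℕ, q.Prime → q ∣ n → q % 8 = 1 ∨ q % 8 = 7) →
    n % 8 = 1 ∨ n % 8 = 7 := by
  induction n using Nat.strong_induction_on with
  | _ n ih =>
    intro h0 h
    by_cases h1 : n = 1
    · subst h1; left; rfl
    obtain ⟨p, hp, m, rfl⟩ := Nat.exists_prime_and_dvd h1
    have hm0 : m ≠ 0 := by rintro rfl; exact h0 (mul_zero p)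
    have hlt : m < p * m := by nlinarith [hp.two_le, Nat.pos_of_ne_zero hm0]
    have h2 := ih m hlt hm0 (fun q hq hqm => h q hq (hqm.mul_left p))
    have h3 := h p hp (dvd_mul_right p m)
    rcases h2 with h2 | h2 <;> rcases h3 with h3 | h3 <;> rw [Nat.mul_mod, h2, h3] <;> norm_num

section form

variable {n : ℤ} {x : ℚ} {c d : ℕ}

theorem form_c (h : OddForm n x c d) : ∀ q : ℕ, q.Prime → (q % 8 = 3 ∨ q % 8 = 5) → ¬ q ∣ c := by
  intro q hq h35 hqc
  obtain ⟨a, -, ha⟩ := exists_BType h.c_pos h.d_pos h.cop (h.eq ▸ h.hasX)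
  have : Fact q.Prime := ⟨hq⟩
  have hq2 : q ≠ 2 := by omega
  have hqd : ¬ q ∣ d := by
    intro h2
    have h3 := Nat.dvd_gcd hqc h2
    rw [h.cop.gcd_eq_one] at h3
    exact hq.one_lt.ne' (Nat.dvd_one.1 h3)
  have hc' : (c : ZMod q) = 0 := by rw [ZMod.natCast_eq_zero_iff]; exact hqc
  have hd' : (d : ZMod q) ≠ 0 := by rw [Ne, ZMod.natCast_eq_zero_iff]; exact hqd
  have h5 : (2 : ZMod q) * (d : ZMod q) ^ 4 = (c : ZMod q) ^ 4 + (a : ZMod q) ^ 2 := by
    exact_mod_cast congrArg (fun n : ℕ => (n : ZMod q)) ha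
  rw [hc'] at h5
  have h6 : IsSquare (2 : ZMod q) := by
    refine ⟨(a : ZMod q) / (d : ZMod q) ^ 2, ?_⟩
    field_simp
    linear_combination h5
  have h7 := (ZMod.exists_sq_eq_two_iff hq2).1 h6
  omega

theorem form_d (h : OddForm n x c d) : ∀ q : ℕ, q.Prime → q ∣ d → q % 4 = 1 := by
  intro q hq hqd
  obtain ⟨a, -, ha⟩ := exists_BType h.c_pos h.d_pos h.cop (h.eq ▸ h.hasX)
  have : Fact q.Prime := ⟨hq⟩
  have hqc : ¬ q ∣ c := by
    intro h2
    have h3 := Nat.dvd_gcd h2 hqd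
    rw [h.cop.gcd_eq_one] at h3
    exact hq.one_lt.ne' (Nat.dvd_one.1 h3)
  have hc' : (c : ZMod q) ≠ 0 := by rw [Ne, ZMod.natCast_eq_zero_iff]; exact hqc
  have hd' : (d : ZMod q) = 0 := by rw [ZMod.natCast_eq_zero_iff]; exact hqd
  have h5 : (2 : ZMod q) * (d : ZMod q) ^ 4 = (c : ZMod q) ^ 4 + (a : ZMod q) ^ 2 := by
    exact_mod_cast congrArg (fun n : ℕ => (n : ZMod q)) ha
  rw [hd'] at h5
  have h6 : IsSquare (-1 : ZMod q) := by
    refine ⟨(a : ZMod q) / (c : ZMod q) ^ 2, ?_⟩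
    field_simp
    linear_combination h5
  have h7 := (ZMod.exists_sq_eq_neg_one_iff (p := q)).1 h6
  have h8 := hq.eq_two_or_odd
  have h9 : q ≠ 2 := by
    rintro rfl
    have := h.d_odd
    omega
  omega

theorem form_den (h : OddForm n x c d) : x.den = d ^ 2 := by
  have hd0 : (0 : ℤ) < (d : ℤ) ^ 2 := by
    have := h.d_pos
    positivity
  have hcop : Nat.Coprime (-(c : ℤ) ^ 2).natAbs ((d : ℤ) ^ 2).natAbs := by
    rw [Int.natAbs_neg, Int.natAbs_pow, Int.natAbs_pow, Int.natAbs_natCast, Int.natAbs_natCast]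
    exact h.cop.pow 2 2
  have h1 := Rat.den_div_eq_of_coprime hd0 hcop
  have e : x = ((-(c : ℤ) ^ 2 : ℤ) : ℚ) / (((d : ℤ) ^ 2 : ℤ) : ℚ) := by
    rw [h.eq]
    push_cast
    ring
  rw [← e] at h1
  exact_mod_cast h1

theorem form_c8 (h : OddForm n x c d) : c ^ 2 % 16 = 1 := by
  have h1 : c % 8 = 1 ∨ c % 8 = 7 := by
    refine mod8_pm c h.c_pos.ne' (fun q hq hqc => ?_)
    have h2 := form_c h q hq
    have h3 := hq.eq_two_or_odd
    have h4 : q ≠ 2 := by
      rintro rfl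
      have := h.c_odd
      omega
    by_contra hcon
    exact h2 (by omega) hqc
  have h2 : c % 16 = 1 ∨ c % 16 = 7 ∨ c % 16 = 9 ∨ c % 16 = 15 := by omega
  rcases h2 with h2 | h2 | h2 | h2 <;> rw [Nat.pow_mod, h2]

theorem form_val (h : OddForm n x c d) {q : ℕ} (hq : q.Prime) (h5 : q % 8 = 5) :
    padicValRat q x = -2 * (d.factorization q : ℤ) := by
  have : Fact q.Prime := ⟨hq⟩
  have hc0 : (c : ℚ) ≠ 0 := by exact_mod_cast h.c_pos.ne'
  have hd0 : (d : ℚ) ≠ 0 := by exact_mod_cast h.d_pos.ne'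
  rw [h.eq, padicValRat.neg, padicValRat.div (pow_ne_zero 2 hc0) (pow_ne_zero 2 hd0),
    padicValRat.pow, padicValRat.pow, padicValRat.of_nat, padicValRat.of_nat,
    padicValNat.eq_zero_of_not_dvd (form_c h q hq (Or.inr h5)), Nat.factorization_def _ hq]
  push_cast
  ring

end form

theorem sq_mod {d : ℕ} (h : d % 2 = 1) : d ^ 2 % 16 = 1 ∨ d ^ 2 % 16 = 9 := by
  have h2 : d % 16 = 1 ∨ d % 16 = 3 ∨ d % 16 = 5 ∨ d % 16 = 7 ∨ d % 16 = 9 ∨ d % 16 = 11 ∨
    d % 16 = 13 ∨ d % 16 = 15 := by omega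
  rcases h2 with h2 | h2 | h2 | h2 | h2 | h2 | h2 | h2 <;> rw [Nat.pow_mod, h2] <;> norm_num

theorem cast16 {a b : ℕ} (h : a % 16 = b) : (a : ZMod 16) = (b : ZMod 16) := by
  rw [← h, ZMod.natCast_mod]

theorem den_rel {k : ℤ} (hk : Odd k) :
    ((xc ((k + 2) • P0)).den * (xc ((k - 2) • P0)).den) % 16 = 9 := by
  obtain ⟨c, d, h⟩ := oddForm_of_hasX hk (hasX_odd hk)
  have hk1 : Odd (k + 2) := hk.add_even (by decide)
  have hk2 : Odd (k - 2) := hk.sub_even (by decide)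
  obtain ⟨c1, d1, h1⟩ := oddForm_of_hasX hk1 (hasX_odd hk1)
  obtain ⟨c2, d2, h2⟩ := oddForm_of_hasX hk2 (hasX_odd hk2)
  have hc0 : (c : ℚ) ≠ 0 := by exact_mod_cast h.c_pos.ne'
  have hd0 : (d : ℚ) ≠ 0 := by exact_mod_cast h.d_pos.ne'
  have hd10 : (d1 : ℚ) ≠ 0 := by exact_mod_cast h1.d_pos.ne'
  have hd20 : (d2 : ℚ) ≠ 0 := by exact_mod_cast h2.d_pos.ne'
  have hneg : xc (k • P0) < 0 := by
    rw [h.eq]
    have : 0 < (c : ℚ) ^ 2 / (d : ℚ) ^ 2 := by positivity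
    linarith
  obtain ⟨s, t, hs, ht, -, hp⟩ := hasX_add_sub (hasX_odd hk) hasX_two_P0 (by linarith)
  rw [← add_zsmul] at hs
  rw [sub_eq_add_neg, ← sub_zsmul] at ht
  have es := (xc_of_hasX hs)
  have et := (xc_of_hasX ht)
  rw [← es, ← et, h.eq, h1.eq, h2.eq] at hp
  have key : ((c1 : ℚ) * c2) ^ 2 * (4 * c ^ 2 + 9 * d ^ 2) ^ 2 =
      (d1 * d2) ^ 2 * (8 * d ^ 2 - 9 * c ^ 2) ^ 2 := by
    field_simp at hp
    linear_combination hp
  have keyZ : ((c1 : ℤ) * c2) ^ 2 * (4 * c ^ 2 + 9 * d ^ 2) ^ 2 =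
      (d1 * d2) ^ 2 * (8 * d ^ 2 - 9 * c ^ 2) ^ 2 := by exact_mod_cast key
  have key16 : ((c1 : ZMod 16) * c2) ^ 2 * (4 * c ^ 2 + 9 * d ^ 2) ^ 2 =
      (d1 * d2) ^ 2 * (8 * d ^ 2 - 9 * c ^ 2) ^ 2 := by
    have := congrArg (fun z : ℤ => (z : ZMod 16)) keyZ
    push_cast at this
    exact this
  have hC : (c : ZMod 16) ^ 2 = 1 := by exact_mod_cast cast16 (form_c8 h)
  have hC1 : (c1 : ZMod 16) ^ 2 = 1 := by exact_mod_cast cast16 (form_c8 h1)
  have hC2 : (c2 : ZMod 16) ^ 2 = 1 := by exact_mod_cast cast16 (form_c8 h2)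
  have hfin : (d1 : ZMod 16) ^ 2 * (d2 : ZMod 16) ^ 2 = 9 := by
    rw [mul_pow, mul_pow, hC1, hC2, hC] at key16
    rcases sq_mod h.d_odd with hD | hD
    · have hD' : (d : ZMod 16) ^ 2 = 1 := by exact_mod_cast cast16 hD
      rw [hD'] at key16
      have e1 : ((4 * 1 + 9 * 1) ^ 2 : ZMod 16) = 9 := by decide
      have e2 : ((8 * 1 - 9 * 1) ^ 2 : ZMod 16) = 1 := by decide
      rw [e1, e2, one_mul, one_mul, mul_one] at key16
      exact key16.symm
    · have hD' : (d : ZMod 16) ^ 2 = 9 := by exact_mod_cast cast16 hD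
      rw [hD'] at key16
      have e1 : ((4 * 1 + 9 * 9) ^ 2 : ZMod 16) = 9 := by decide
      have e2 : ((8 * 9 - 9 * 1) ^ 2 : ZMod 16) = 1 := by decide
      rw [e1, e2, one_mul, one_mul, mul_one] at key16
      exact key16.symm
  rw [form_den h1, form_den h2]
  have h3 : ((d1 ^ 2 * d2 ^ 2 : ℕ) : ZMod 16) = ((9 : ℕ) : ZMod 16) := by
    push_cast
    exact hfin
  exact (ZMod.natCast_eq_natCast_iff' _ _ _).1 h3

theorem den_mod (k : ℕ) : k % 2 = 1 → (xc ((k : ℤ) • P0)).den % 16 = k ^ 2 % 16 := by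
  induction k using Nat.strong_induction_on with
  | _ k ih =>
    intro hk
    have hP : HasX P0 (-1) := ⟨1, _, rfl⟩
    have h1 : xc ((1 : ℤ) • P0) = -1 := by rw [one_zsmul]; exact xc_of_hasX hP
    by_cases hk1 : k = 1
    · subst hk1
      rw [Nat.cast_one, h1]
      rfl
    by_cases hk3 : k = 3
    · subst hk3
      have h2 := den_rel (k := 1) (by decide)
      have e : xc (((1 : ℤ) - 2) • P0) = -1 := by
        rw [show (1 : ℤ) - 2 = -1 by norm_num, neg_zsmul, xc_neg, h1]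
      rw [e] at h2
      have e2 : (-1 : ℚ).den = 1 := rfl
      rw [e2, mul_one] at h2
      have e3 : ((3 : ℕ) : ℤ) = 1 + 2 := by norm_num
      rw [e3, h2]
      rfl
    · obtain ⟨j, rfl⟩ : ∃ j, k = j + 4 := ⟨k - 4, by omega⟩
      have hj : j % 2 = 1 := by omega
      have h2 := ih j (by omega) hj
      have h3 := den_rel (k := (j : ℤ) + 2) (by
        have : Odd (j : ℤ) := by exact_mod_cast Nat.odd_iff.2 hj
        exact this.add_even (by decide))
      have e1 : (j : ℤ) + 2 + 2 = ((j + 4 : ℕ) : ℤ) := by push_cast; ring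
      have e2 : (j : ℤ) + 2 - 2 = j := by ring
      rw [e1, e2, Nat.mul_mod, h2] at h3
      have h4 : j % 16 = 1 ∨ j % 16 = 3 ∨ j % 16 = 5 ∨ j % 16 = 7 ∨ j % 16 = 9 ∨ j % 16 = 11 ∨
        j % 16 = 13 ∨ j % 16 = 15 := by omega
      have h5 : ∀ a b : ℕ, j % 16 = a → a ^ 2 % 16 = b → (a + 4) ^ 2 % 16 = (9 * b) % 16 →
          (b = 1 ∨ b = 9) → (xc (((j + 4 : ℕ) : ℤ) • P0)).den % 16 = (j + 4) ^ 2 % 16 := by
        intro a b ha hb hab hb'
        have h6 : (j + 4) ^ 2 % 16 = (9 * b) % 16 := by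
          rw [Nat.pow_mod, Nat.add_mod, ha, ← hab, Nat.pow_mod (a + 4)]
        rw [h6]
        rw [Nat.pow_mod, ha, hb] at h3
        rcases hb' with rfl | rfl <;> omega
      rcases h4 with h4 | h4 | h4 | h4 | h4 | h4 | h4 | h4 <;>
        exact h5 _ _ h4 rfl (by norm_num) (by norm_num)

end Vale.Agent.P027.E5
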