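import Vale.Agent.P027.R5.E5.U3

set_option linter.all false

/-! Prime powers of primes that are three modulo eight: unconditional primes. -/

namespace Vale.Agent.P027.E5

open Vale.Agent.P345 Vale.Agent.P027 Vale.Agent.P027.HT Vale.Agent.P027.D1 Vale.Agent.P027.D5

theorem three_mod_eight {C n r e : ℕ} (hC : Odd C) (hn : 0 < n) (hco : Nat.Coprime n (2 * C))
    (hr : r.Prime) (hr3 : r % 8 = 3) (he : 1 ≤ e) (h1 : r ^ e ∣ n) (h2 : ¬ r ^ (e + 1) ∣ n) :
    ∃ q m : ℕ, q.Prime ∧ Ord q m ∧ r ^ e ∣ m ∧ m ∣ 2 * C * n ∧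
      (Odd C ∧ q % 8 = 5 ∧ padicValRat q (xc ((C * n : ℤ) • P0)) % 4 = 2) := by
  obtain ⟨n', rfl⟩ := h1
  have hn' : ¬ r ∣ n' := by
    rintro ⟨t, rfl⟩
    exact h2 ⟨t, by ring⟩
  have hrC : ¬ r ∣ C := by
    intro h
    have h3 : r ∣ r ^ e * n' := (dvd_pow_self r (by omega)).mul_right n'
    have h4 := Nat.dvd_gcd h3 (h.mul_left 2)
    rw [hco.gcd_eq_one] at h4
    exact hr.one_lt.ne' (Nat.dvd_one.1 h4)
  obtain ⟨e', rfl⟩ : ∃ e', e = e' + 1 := ⟨e - 1, by omega⟩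
  set N' := C * (r ^ e' * n') with hN'
  have hNr : C * (r ^ (e' + 1) * n') = r * N' := by rw [hN', pow_succ]; ring
  have hnodd : Odd (r ^ (e' + 1) * n') := by
    rw [← Nat.not_even_iff_odd, even_iff_two_dvd]
    intro h
    have h4 := Nat.dvd_gcd h (dvd_mul_right 2 C)
    rw [hco.gcd_eq_one] at h4
    exact absurd (Nat.dvd_one.1 h4) (by norm_num)
  have hNodd : Odd (r * N') := by rw [← hNr]; exact hC.mul hnodd
  obtain ⟨-, hN'odd⟩ := Nat.odd_mul.1 hNodd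
  have hN'pos : 0 < N' := hN'odd.pos
  have hN'2 : N' % 2 = 1 := Nat.odd_iff.1 hN'odd
  have hN2 : (r * N') % 2 = 1 := Nat.odd_iff.1 hNodd
  have hNZ : Odd ((r * N' : ℕ) : ℤ) := by exact_mod_cast hNodd
  have hN'Z : Odd ((N' : ℕ) : ℤ) := by exact_mod_cast hN'odd
  obtain ⟨c, d, hf⟩ := oddForm_of_hasX hNZ (hasX_odd hNZ)
  obtain ⟨c', d', hf'⟩ := oddForm_of_hasX hN'Z (hasX_odd hN'Z)
  have m1 := den_mod (r * N') hN2
  have m2 := den_mod N' hN'2
  rw [form_den hf] at m1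
  rw [form_den hf'] at m2
  have hd0 := hf.d_pos.ne'
  have hd'0 := hf'.d_pos.ne'
  -- the product of the denominators
  have hdd : (d * d') % 8 ≠ 1 := by
    intro h
    have h3 : (d * d') ^ 2 % 16 = 1 := by
      have h4 : (d * d') % 16 = 1 ∨ (d * d') % 16 = 9 := by omega
      rcases h4 with h4 | h4 <;> rw [Nat.pow_mod, h4]
    rw [mul_pow, Nat.mul_mod, m1, m2, mul_pow, ← Nat.mul_mod] at h3
    have h5 : r ^ 2 % 16 = 9 := by
      have h6 : r % 16 = 3 ∨ r % 16 = 11 := by omega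
      rcases h6 with h6 | h6 <;> rw [Nat.pow_mod, h6]
    rcases sq_mod hN'2 with h6 | h6
    · rw [mul_assoc, Nat.mul_mod, h5, Nat.mul_mod (N' ^ 2), h6] at h3
      norm_num at h3
    · rw [mul_assoc, Nat.mul_mod, h5, Nat.mul_mod (N' ^ 2), h6] at h3
      norm_num at h3
  obtain ⟨q, hq, h5, hodd⟩ : ∃ q : ℕ, q.Prime ∧ q % 8 = 5 ∧ ¬ Even ((d * d').factorization q) := by
    by_contra hcon
    push Not at hcon
    refine hdd (mod8_one (d * d') (Nat.mul_ne_zero hd0 hd'0) (fun q hq hqd => ?_) hcon)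
    rcases (hq.dvd_mul).1 hqd with h | h
    · exact form_d hf q hq h
    · exact form_d hf' q hq h
  have hqf : Fact q.Prime := ⟨hq⟩
  rw [Nat.factorization_mul hd0 hd'0, Finsupp.add_apply, Nat.not_even_iff_odd] at hodd
  have v1 := form_val hf hq h5
  have v2 := form_val hf' hq h5
  have hq0' : d'.factorization q = 0 := by
    by_contra hcon
    have hN0 : (((r * N' : ℕ) : ℤ)) ≠ 0 := by exact_mod_cast (Nat.mul_pos hr.pos hN'pos).ne'
    have hN0' : ((N' : ℕ) : ℤ) ≠ 0 := by exact_mod_cast hN'pos.ne'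
    have hgt : 1 < padicNorm q (xc ((N' : ℤ) • P0)) := by
      rw [← dvd_den_iff, form_den hf']
      exact (Nat.dvd_of_factorization_pos hcon).trans (dvd_pow_self d' two_ne_zero)
    have hX : HasX (r • ((N' : ℤ) • P0)) (xc (((r * N' : ℕ) : ℤ) • P0)) := by
      have e : r • ((N' : ℤ) • P0) = ((r * N' : ℕ) : ℤ) • P0 := by
        rw [← natCast_zsmul, ← mul_zsmul, Nat.cast_mul r N']
      rw [e]
      exact hasX_odd hNZ
    have hX' := hasX_odd hN'Z
    have h6 := R4.H712.norm_prime_mul (p := q) hX' hgt hr hX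
    have h7 : padicNorm q (r : ℚ) = 1 := by
      rw [padicNorm.nat_eq_one_iff]
      intro h8
      have := (Nat.prime_dvd_prime_iff_eq hq hr).1 h8
      omega
    rw [h7, one_pow, mul_one, pn_eq_iff (xc_ne _ hN0) (xc_ne _ hN0'), v1, v2] at h6
    have h8 : d.factorization q = d'.factorization q := by omega
    rw [h8] at hodd
    exact (Nat.not_even_iff_odd.2 hodd) ⟨_, rfl⟩
  rw [hq0', add_zero] at hodd
  have hqd : q ∣ d := Nat.dvd_of_factorization_pos (by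
    intro h; rw [h] at hodd; exact absurd hodd (by decide))
  have hDv : Dv q ((r * N' : ℕ) : ℤ) := by
    right
    rw [form_den hf]
    exact hqd.trans (dvd_pow_self d two_ne_zero)
  obtain ⟨m, ho, hm⟩ := rowO q hq (r * N') (Nat.mul_pos hr.pos hN'pos) hDv
  have hmN' : ¬ m ∣ N' := by
    intro h
    have h3 : Dv q (N' : ℤ) := (ho.2 _).2 (Int.natCast_dvd_natCast.2 h)
    rcases h3 with h3 | h3
    · exact hN'pos.ne' (by exact_mod_cast h3)
    · rw [form_den hf'] at h3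
      have h4 := hq.dvd_of_dvd_pow h3
      have h6 := (hq.dvd_iff_one_le_factorization hd'0).1 h4
      omega
  refine ⟨q, m, hq, ho, ?_, ?_, hC, h5, ?_⟩
  · obtain ⟨a, m', hm', hma⟩ := Nat.exists_eq_pow_mul_and_not_dvd ho.1.ne' r hr.one_lt.ne'
    have hu : N' = r ^ e' * (C * n') := by rw [hN']; ring
    have hcop : Nat.Coprime m' (r ^ (e' + 1)) :=
      ((Nat.Prime.coprime_iff_not_dvd hr).2 hm').symm.pow_right _
    have h3 : m' ∣ C * n' := by
      have h4 : m' ∣ r ^ (e' + 1) * (C * n') := by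
        refine (Dvd.intro_left (r ^ a) hma.symm).trans (hm.trans (dvd_of_eq ?_))
        rw [hu, pow_succ]; ring
      exact hcop.dvd_of_dvd_mul_left h4
    have h4 : e' + 1 ≤ a := by
      by_contra hcon
      refine hmN' ?_
      rw [hma, hu]
      exact mul_dvd_mul (pow_dvd_pow r (by omega)) h3
    rw [hma]
    exact (pow_dvd_pow r h4).mul_right m'
  · refine hm.trans ?_
    rw [← hNr, mul_assoc]
    exact dvd_mul_left _ 2
  · have e1 : ((C : ℤ) * ((r ^ (e' + 1) * n' : ℕ) : ℤ)) = ((r * N' : ℕ) : ℤ) := by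
      rw [← hNr]; push_cast; ring
    rw [e1, v1]
    obtain ⟨k, hk⟩ := hodd
    rw [hk]
    push_cast
    omega

/-- sets with one omitted prime for every power of a prime that is not three modulo eight -/
theorem cls_three {B C : ℕ} {R : Set ℚ} (hC : Odd C) (hZ : ∀ z : ℤ, (z : ℚ) ∈ R)
    (hx : ∀ k : ℕ, 1 ≤ k → xc ((C * 2 ^ k : ℤ) • P0) ∈ R)
    (hl : ∀ r e : ℕ, r.Prime → r % 8 ≠ 3 → ¬ r ∣ 2 * C → 1 ≤ e → B < r ^ e →
      ∃ q : ℕ, q.Prime ∧ (∃ c, c ∣ 2 * C ∧ Ord q (c * r ^ e)) ∧ ∀ t ∈ R, ¬ q ∣ t.den) :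
    Cls B C R := by
  refine ⟨hC.pos, hZ, hx, fun n r e hn hco hr he h1 h2 hB => ?_⟩
  by_cases h3 : r % 8 = 3
  · obtain ⟨q, m, hq, ho, hrm, hm, h⟩ := three_mod_eight hC hn hco hr h3 he h1 h2
    exact ⟨q, m, hq, ho, hrm, hm, Or.inr h⟩
  · have hrC : ¬ r ∣ 2 * C := by
      intro h3
      have h4 : r ∣ n := (dvd_pow_self r (by omega)).trans h1
      have h5 := Nat.dvd_gcd h4 h3
      rw [hco.gcd_eq_one] at h5
      exact hr.one_lt.ne' (Nat.dvd_one.1 h5)
    obtain ⟨q, hq, ⟨c, hc, ho⟩, hR⟩ := hl r e hr h3 hrC he hB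
    exact ⟨q, c * r ^ e, hq, ho, dvd_mul_left _ _, mul_dvd_mul hc h1, Or.inl hR⟩

theorem dvd_of_val {C n q m : ℕ} (hq : q.Prime) (h5 : q % 8 = 5) (hC : 0 < C) (hn : 0 < n)
    (ho : Ord q m) (hv : padicValRat q (xc ((C * n : ℤ) • P0)) % 4 = 2) : m ∣ 2 * C * n := by
  have : Fact q.Prime := ⟨hq⟩
  have h0 : ((C : ℤ) * n) ≠ 0 := by
    have : 0 < C * n := Nat.mul_pos hC hn
    exact_mod_cast this.ne'
  have h1 : q ∣ (xc ((C * n : ℤ) • P0)).den := by
    rw [dvd_den_iff]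
    by_contra hcon
    rw [not_lt] at hcon
    have h2 := le_antisymm hcon (norm_ge (q := q) h5 h0)
    have h3 : padicNorm q (xc ((C * n : ℤ) • P0)) = padicNorm q 1 := by rw [h2, padicNorm.one]
    rw [pn_eq_iff (xc_ne _ h0) one_ne_zero, padicValRat.one] at h3
    rw [h3] at hv
    norm_num at hv
  have h2 : Dv q ((C : ℤ) * n) := Or.inr h1
  rw [ho.2] at h2
  have h3 : m ∣ C * n := by exact_mod_cast h2
  rw [mul_assoc]
  exact h3.mul_left 2

end Vale.Agent.P027.E5
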